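import Mathlib

/-! Averaging over the fibres of a map on a finite type. -/

namespace Vale.Agent.P335

open Finset

variable {Ω K J : Type*} [Fintype Ω] [DecidableEq K] [DecidableEq J]

/-- The inner product of two functions. -/
noncomputable def ip (f g : Ω → ℝ) : ℝ := ∑ x, f x * g x

/-- The fibre of `κ` through `x`. -/
def fib (κ : Ω → K) (x : Ω) : Finset Ω := univ.filter fun y => κ y = κ x

/-- Averaging over the fibres of `κ`. -/
noncomputable def avg (κ : Ω → K) : (Ω → ℝ) →ₗ[ℝ] (Ω → ℝ) where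
  toFun f x := (∑ y ∈ fib κ x, f y) / ((fib κ x).card : ℝ)
  map_add' f g := by
    ext x; simp [Finset.sum_add_distrib, add_div]
  map_smul' c f := by
    ext x; simp [← Finset.mul_sum, mul_div_assoc]

/-- The deviation from the fibre average. -/
noncomputable def dev (κ : Ω → K) : (Ω → ℝ) →ₗ[ℝ] (Ω → ℝ) := LinearMap.id - avg κ

lemma mem_fib {κ : Ω → K} {x y : Ω} : y ∈ fib κ x ↔ κ y = κ x := by simp [fib]

lemma self_mem_fib (κ : Ω → K) (x : Ω) : x ∈ fib κ x := mem_fib.2 rfl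

lemma fib_eq {κ : Ω → K} {x y : Ω} (h : κ y = κ x) : fib κ y = fib κ x := by simp [fib, h]

lemma fib_card_pos (κ : Ω → K) (x : Ω) : (0 : ℝ) < ((fib κ x).card : ℝ) := by
  exact_mod_cast Finset.card_pos.2 ⟨x, self_mem_fib κ x⟩

lemma avg_apply (κ : Ω → K) (f : Ω → ℝ) (x : Ω) :
    avg κ f x = (∑ y ∈ fib κ x, f y) / ((fib κ x).card : ℝ) := rfl

lemma dev_apply (κ : Ω → K) (f : Ω → ℝ) : dev κ f = f - avg κ f := rfl

lemma avg_congr {κ : Ω → K} (f : Ω → ℝ) {x y : Ω} (h : κ y = κ x) : avg κ f y = avg κ f x := by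
  simp [avg_apply, fib_eq h]

lemma avg_fixed {κ : Ω → K} {f : Ω → ℝ} (h : ∀ x y, κ y = κ x → f y = f x) : avg κ f = f := by
  ext x
  rw [avg_apply, Finset.sum_congr rfl (fun y hy => h x y (mem_fib.1 hy))]
  have := fib_card_pos κ x
  simp [Finset.sum_const]; field_simp

lemma avg_idem (κ : Ω → K) (f : Ω → ℝ) : avg κ (avg κ f) = avg κ f :=
  avg_fixed fun _ _ h => avg_congr f h

lemma ip_comm (f g : Ω → ℝ) : ip f g = ip g f := by simp [ip, mul_comm]

lemma ip_add_left (f g h : Ω → ℝ) : ip (f + g) h = ip f h + ip g h := by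
  simp [ip, add_mul, Finset.sum_add_distrib]

lemma ip_sub_left (f g h : Ω → ℝ) : ip (f - g) h = ip f h - ip g h := by
  simp [ip, sub_mul, Finset.sum_sub_distrib]

lemma ip_sub_right (f g h : Ω → ℝ) : ip f (g - h) = ip f g - ip f h := by
  simp [ip, mul_sub, Finset.sum_sub_distrib]

lemma ip_smul_left (c : ℝ) (f g : Ω → ℝ) : ip (c • f) g = c * ip f g := by
  simp [ip, Finset.mul_sum, mul_assoc]

lemma ip_smul_right (c : ℝ) (f g : Ω → ℝ) : ip f (c • g) = c * ip f g := by
  rw [ip_comm, ip_smul_left, ip_comm]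

lemma ip_sum_left {ι : Type*} (s : Finset ι) (F : ι → Ω → ℝ) (g : Ω → ℝ) :
    ip (∑ i ∈ s, F i) g = ∑ i ∈ s, ip (F i) g := by
  simp only [ip, Finset.sum_apply, Finset.sum_mul]; rw [Finset.sum_comm]

lemma ip_sum_right {ι : Type*} (s : Finset ι) (F : ι → Ω → ℝ) (g : Ω → ℝ) :
    ip g (∑ i ∈ s, F i) = ∑ i ∈ s, ip g (F i) := by
  rw [ip_comm, ip_sum_left]; simp [ip_comm]

lemma ip_self_nonneg (f : Ω → ℝ) : 0 ≤ ip f f :=
  Finset.sum_nonneg fun x _ => mul_self_nonneg (f x)

lemma ip_self_eq_zero {f : Ω → ℝ} : ip f f = 0 ↔ f = 0 := by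
  rw [ip, Finset.sum_eq_zero_iff_of_nonneg fun x _ => mul_self_nonneg (f x)]
  simp [funext_iff]

lemma avg_symm (κ : Ω → K) (f g : Ω → ℝ) : ip (avg κ f) g = ip f (avg κ g) := by
  simp only [ip, avg_apply, Finset.sum_div, Finset.mul_sum, Finset.sum_mul, fib, Finset.sum_filter]
  rw [Finset.sum_comm]
  refine Finset.sum_congr rfl fun x _ => Finset.sum_congr rfl fun y _ => ?_
  by_cases h : κ x = κ y
  · simp only [h, if_true]
    ring
  · have h' : ¬ κ y = κ x := fun e => h e.symm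
    simp [h, h']

lemma dev_symm (κ : Ω → K) (f g : Ω → ℝ) : ip (dev κ f) g = ip f (dev κ g) := by
  simp only [dev_apply, ip_sub_left, ip_sub_right, avg_symm]

lemma dev_idem (κ : Ω → K) (f : Ω → ℝ) : dev κ (dev κ f) = dev κ f := by
  simp only [dev_apply, map_sub, avg_idem]; simp

lemma ip_dev_self (κ : Ω → K) (f : Ω → ℝ) : ip (dev κ f) f = ip (dev κ f) (dev κ f) := by
  conv_lhs => rw [← dev_idem κ f, dev_symm]

lemma avg_avg_apply {κ : Ω → K} {μ : Ω → J} (hinj : ∀ x y, κ x = κ y → μ x = μ y → x = y)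
    (hc : ∀ x y, κ y = κ x → (fib μ y).card = (fib μ x).card) (f : Ω → ℝ) (x : Ω) :
    avg κ (avg μ f) x = (∑ z, if ∃ y, κ y = κ x ∧ μ z = μ y then f z else 0) /
      (((fib μ x).card : ℝ) * ((fib κ x).card : ℝ)) := by
  classical
  rw [avg_apply, ← div_div]
  congr 1
  rw [Finset.sum_div, Finset.sum_congr rfl (fun y hy => by
    rw [avg_apply, hc x y (mem_fib.1 hy)]), ← Finset.sum_div, ← Finset.sum_div]
  congr 1
  simp only [fib, Finset.sum_filter]
  rw [Finset.sum_congr rfl (fun y _ => show _ = ∑ z, if κ y = κ x then (if μ z = μ y then f z else 0) else 0 by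
    split_ifs <;> simp), Finset.sum_comm]
  refine Finset.sum_congr rfl fun z _ => ?_
  by_cases h : ∃ y, κ y = κ x ∧ μ z = μ y
  · obtain ⟨y, h1, h2⟩ := h
    rw [if_pos ⟨y, h1, h2⟩, Finset.sum_eq_single y]
    · simp [h1, h2]
    · intro b _ hb
      by_contra hne
      simp only [ite_eq_right_iff, Classical.not_imp] at hne
      obtain ⟨h3, h4, _⟩ := hne
      exact hb (hinj b y (h3.trans h1.symm) (h4.symm.trans h2))
    · simp
  · rw [if_neg h]
    refine Finset.sum_eq_zero fun y _ => ?_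
    push Not at h
    by_cases h3 : κ y = κ x
    · simp [h y h3]
    · simp [h3]

/-- Two averages commute if the joint map is injective and two-step paths may be reversed. -/
lemma avg_comm {κ : Ω → K} {μ : Ω → J} (hinj : ∀ x y, κ x = κ y → μ x = μ y → x = y)
    (hex : ∀ x z, (∃ y, κ y = κ x ∧ μ z = μ y) ↔ (∃ y, μ y = μ x ∧ κ z = κ y))
    (hcμ : ∀ x y, κ y = κ x → (fib μ y).card = (fib μ x).card)
    (hcκ : ∀ x y, μ y = μ x → (fib κ y).card = (fib κ x).card)
    (f : Ω → ℝ) : avg κ (avg μ f) = avg μ (avg κ f) := by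
  classical
  ext x
  rw [avg_avg_apply hinj hcμ, avg_avg_apply (fun a b h h' => hinj a b h' h) hcκ, mul_comm]
  congr 1
  exact Finset.sum_congr rfl fun z _ => by simp only [hex x z]

lemma ip_dev_dev_nonneg {κ : Ω → K} {μ : Ω → J} (f : Ω → ℝ)
    (h : ∀ g, avg κ (avg μ g) = avg μ (avg κ g)) : 0 ≤ ip (dev κ f) (dev μ f) := by
  have hc : ∀ g, dev κ (dev μ g) = dev μ (dev κ g) := by
    intro g
    simp only [dev_apply, map_sub, h]
    abel
  have : ip (dev κ f) (dev μ f) = ip (dev μ (dev κ f)) (dev μ (dev κ f)) := by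
    calc ip (dev κ f) (dev μ f) = ip (dev κ (dev κ f)) (dev μ (dev μ f)) := by rw [dev_idem, dev_idem]
      _ = ip (dev μ (dev κ f)) (dev μ (dev κ f)) := by
          rw [dev_symm, hc, ← dev_symm μ]
          congr 1
          rw [hc]
  rw [this]; exact ip_self_nonneg _

/-- A self-adjoint map all of whose eigenvalues are `0` or at least `1` satisfies `R ≤ R²`. -/
lemma le_sq_of_eigen [DecidableEq Ω] (R : (Ω → ℝ) →ₗ[ℝ] (Ω → ℝ))
    (hR : ∀ f g, ip (R f) g = ip f (R g))
    (he : ∀ (f : Ω → ℝ) (l : ℝ), f ≠ 0 → R f = l • f → l = 0 ∨ 1 ≤ l) (f : Ω → ℝ) :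
    ip (R f) f ≤ ip (R f) (R f) := by
  let e := (WithLp.linearEquiv 2 ℝ (Ω → ℝ))
  let T : EuclideanSpace ℝ Ω →ₗ[ℝ] EuclideanSpace ℝ Ω := e.symm.toLinearMap ∘ₗ R ∘ₗ e.toLinearMap
  have hin : ∀ a b : EuclideanSpace ℝ Ω, (inner ℝ a b : ℝ) = ip (e a) (e b) := by
    intro a b; simp [ip, PiLp.inner_apply, e, mul_comm]
  have heT : ∀ a, e (T a) = R (e a) := by intro a; simp [T]
  have hT : T.IsSymmetric := by
    intro a b; simp only [hin, heT, hR]
  have hn : Module.finrank ℝ (EuclideanSpace ℝ Ω) = Fintype.card Ω := by simp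
  set B := hT.eigenvectorBasis hn
  set lam := hT.eigenvalues hn
  have hlam : ∀ i, lam i = 0 ∨ 1 ≤ lam i := by
    intro i
    refine he (e (B i)) (lam i) ?_ ?_
    · intro h0
      have : B i = 0 := e.map_eq_zero_iff.1 h0
      exact B.orthonormal.ne_zero i this
    · rw [← heT, hT.apply_eigenvectorBasis hn i]
      simp [B, lam]
  set a := e.symm f
  have hf : e a = f := by simp [a]
  have h1 : ∀ b, (inner ℝ (T a) b : ℝ) = ip (R f) (e b) := by
    intro b; rw [hin, heT, hf]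
  have c1 : ip (R f) f = ∑ i, lam i * (B.repr a i * B.repr a i) := by
    rw [← hf, ← heT, ← hin, ← B.repr.inner_map_map, PiLp.inner_apply]
    refine Finset.sum_congr rfl fun i _ => ?_
    rw [hT.eigenvectorBasis_apply_self_apply hn]
    simp [B, lam]; ring
  have c2 : ip (R f) (R f) = ∑ i, (lam i * lam i) * (B.repr a i * B.repr a i) := by
    rw [← hf, ← heT, ← hin, ← B.repr.inner_map_map, PiLp.inner_apply]
    refine Finset.sum_congr rfl fun i _ => ?_
    rw [hT.eigenvectorBasis_apply_self_apply hn]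
    simp [B, lam]
    first
      | ring1
      | (simp only [abs_mul, mul_pow, sq_abs]; ring1)
      | (ring_nf; simp only [sq_abs])
  rw [c1, c2]
  refine Finset.sum_le_sum fun i _ => mul_le_mul_of_nonneg_right ?_ (mul_self_nonneg _)
  rcases hlam i with h | h
  · simp [h]
  · nlinarith

end Vale.Agent.P335
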