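import Vale.Agent.P335.Colour

/-! Zero-one matrices with given margins: the sum of all row-pair resampling projections has
spectral gap at least one. -/

namespace Vale.Agent.P335

open Finset

/-- Transfer of the three-row lemma along a fibre bijection. -/
lemma ip_fibrewise {Ω Z : Type*} [Fintype Ω] [Fintype Z] [DecidableEq Z] (κ : Ω → Z)
    (f g : Ω → ℝ) : ip f g = ∑ z, ip (fun x : {x // κ x = z} => f x.1) (fun x => g x.1) := by
  rw [ip, ← Finset.sum_fiberwise univ κ]
  refine Finset.sum_congr rfl fun z _ => ?_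
  rw [ip]
  exact Finset.sum_subtype _ (fun x => by simp) _

lemma dev_transfer {Ω Z K S K' : Type*} [Fintype Ω] [DecidableEq K] [Fintype S]
    [DecidableEq K'] (κ : Ω → Z) (k : Ω → K) (k' : S → K') (z : Z)
    (e : S ≃ {x // κ x = z}) (href : ∀ x y, k y = k x → κ y = κ x)
    (hk : ∀ s t, k (e s).1 = k (e t).1 ↔ k' s = k' t) (f : Ω → ℝ) (s : S) :
    dev k f (e s).1 = dev k' (fun t => f (e t).1) s := by
  classical
  have hfib : fib k (e s).1 = (fib k' s).image (fun t => (e t).1) := by
    ext y
    simp only [mem_fib, Finset.mem_image]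
    constructor
    · intro hy
      have hz : κ y = z := (href _ _ hy).trans (e s).2
      refine ⟨e.symm ⟨y, hz⟩, ?_, by simp⟩
      exact (hk _ _).1 (by simpa using hy)
    · rintro ⟨t, ht, rfl⟩
      exact (hk _ _).2 ht
  have hinj : ∀ a ∈ fib k' s, ∀ b ∈ fib k' s, (e a).1 = (e b).1 → a = b :=
    fun a _ b _ h => e.injective (Subtype.ext h)
  simp only [dev_apply, Pi.sub_apply, avg_apply]
  rw [hfib, Finset.sum_image hinj, Finset.card_image_of_injOn hinj]

namespace Bip

variable {A B : Type*} [Fintype A] [DecidableEq A] [Fintype B] [DecidableEq B]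

/-- Zero-one matrices with given row and column sums. -/
@[ext] structure Mat (r : A → ℕ) (c : B → ℕ) where
  val : A → B → Bool
  prop : (∀ i, ∑ j, (val i j).toNat = r i) ∧ ∀ j, ∑ i, (val i j).toNat = c j

noncomputable instance Mat.instFintype (r : A → ℕ) (c : B → ℕ) : Fintype (Mat r c) :=
  Fintype.ofInjective Mat.val fun _ _ h => Mat.ext h

noncomputable instance Mat.instDecidableEq (r : A → ℕ) (c : B → ℕ) : DecidableEq (Mat r c) :=
  Classical.decEq _

variable {r : A → ℕ} {c : B → ℕ}

/-- Everything that is kept when the rows in `s` are resampled. -/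
def key (s : Finset A) (x : Mat r c) : A → B → ℕ :=
  fun i j => if i ∈ s then ∑ l ∈ s, (x.1 l j).toNat else (x.1 i j).toNat

lemma toNat_inj' {a b : Bool} (h : a.toNat = b.toNat) : a = b := by
  cases a <;> cases b <;> simp_all

lemma key_eq_iff (s : Finset A) (hs : s.Nonempty) (x y : Mat r c) :
    key s x = key s y ↔ (∀ i, i ∉ s → x.1 i = y.1 i) ∧
      ∀ j, ∑ l ∈ s, (x.1 l j).toNat = ∑ l ∈ s, (y.1 l j).toNat := by
  constructor
  · intro h
    refine ⟨fun i hi => funext fun j => toNat_inj' ?_, fun j => ?_⟩
    · simpa [key, hi] using congrFun (congrFun h i) j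
    · obtain ⟨i, hi⟩ := hs
      simpa [key, hi] using congrFun (congrFun h i) j
  · rintro ⟨h1, h2⟩
    funext i j
    by_cases hi : i ∈ s <;> simp [key, hi, h1, h2]

/-- Replace the rows in `s`. -/
def splice (s : Finset A) (x z : Mat r c)
    (h : ∀ j, ∑ l ∈ s, (x.1 l j).toNat = ∑ l ∈ s, (z.1 l j).toNat) : Mat r c :=
  ⟨fun i j => if i ∈ s then z.1 i j else x.1 i j, by
    refine ⟨fun i => ?_, fun j => ?_⟩
    · by_cases hi : i ∈ s <;> simp [hi, x.2.1 i, z.2.1 i]
    · rw [← x.2.2 j, ← Finset.sum_add_sum_compl s,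
        ← Finset.sum_add_sum_compl s (fun i => (x.1 i j).toNat), h j]
      congr 1
      · exact Finset.sum_congr rfl fun i hi => by simp [hi]
      · exact Finset.sum_congr rfl fun i hi => by simp [Finset.mem_compl.1 hi]⟩

lemma splice_row_in {s : Finset A} {x z : Mat r c} {h} {i : A} (hi : i ∈ s) :
    (splice s x z h).1 i = z.1 i := by funext j; simp [splice, hi]

lemma splice_row_out {s : Finset A} {x z : Mat r c} {h} {i : A} (hi : i ∉ s) :
    (splice s x z h).1 i = x.1 i := by funext j; simp [splice, hi]

lemma swap_exists {s t : Finset A} (hs : s.Nonempty) (ht : t.Nonempty) (hd : Disjoint s t)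
    {x z : Mat r c} (hex : ∃ y : Mat r c, key s y = key s x ∧ key t z = key t y) :
    ∃ u : Mat r c, key t u = key t x ∧ key s z = key s u := by
  obtain ⟨y, h1, h2⟩ := hex
  rw [key_eq_iff s hs] at h1; rw [key_eq_iff t ht] at h2
  have hst : ∀ i, i ∈ t → i ∉ s := fun i hi hi' => Finset.disjoint_left.1 hd hi' hi
  have hts : ∀ i, i ∈ s → i ∉ t := fun i hi hi' => Finset.disjoint_left.1 hd hi hi'
  have hsum : ∀ j, ∑ l ∈ t, (x.1 l j).toNat = ∑ l ∈ t, (z.1 l j).toNat := by
    intro j; rw [h2.2 j]
    exact Finset.sum_congr rfl fun l hl => by rw [h1.1 l (hst l hl)]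
  refine ⟨splice t x z hsum, ?_, ?_⟩
  · rw [key_eq_iff t ht]
    refine ⟨fun i hi => splice_row_out hi, fun j => ?_⟩
    rw [hsum j]; exact Finset.sum_congr rfl fun l hl => by rw [splice_row_in hl]
  · rw [key_eq_iff s hs]
    refine ⟨fun i hi => ?_, fun j => ?_⟩
    · by_cases hit : i ∈ t
      · rw [splice_row_in hit]
      · rw [splice_row_out hit, h2.1 i hit, h1.1 i hi]
    · rw [Finset.sum_congr rfl (fun l hl => show (z.1 l j).toNat = (y.1 l j).toNat by
        rw [h2.1 l (hts l hl)]), h1.2 j]
      exact Finset.sum_congr rfl fun l hl => by rw [splice_row_out (hts l hl)]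

lemma fib_card_eq {s t : Finset A} (hs : s.Nonempty) (ht : t.Nonempty) (hd : Disjoint s t)
    {x y : Mat r c} (h : key s y = key s x) :
    (fib (key t) y).card = (fib (key t) x).card := by
  rw [key_eq_iff s hs] at h
  have hst : ∀ i, i ∈ t → i ∉ s := fun i hi hi' => Finset.disjoint_left.1 hd hi' hi
  have hsum : ∀ (p q : Mat r c), (∀ i, i ∈ t → p.1 i = q.1 i) → ∀ w ∈ fib (key t) p,
      ∀ j, ∑ l ∈ t, (q.1 l j).toNat = ∑ l ∈ t, (w.1 l j).toNat := by
    intro p q hpq w hw j
    rw [((key_eq_iff t ht w p).1 (mem_fib.1 hw)).2 j]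
    exact Finset.sum_congr rfl fun l hl => by rw [hpq l hl]
  have hyx : ∀ i, i ∈ t → y.1 i = x.1 i := fun i hi => h.1 i (hst i hi)
  refine Finset.card_bij' (fun w hw => splice t x w (hsum y x hyx w hw))
    (fun w hw => splice t y w (hsum x y (fun i hi => (hyx i hi).symm) w hw)) ?_ ?_ ?_ ?_
  · intro w hw
    rw [mem_fib, key_eq_iff t ht]
    exact ⟨fun i hi => splice_row_out hi, fun j => by
      rw [hsum y x hyx w hw j]; exact Finset.sum_congr rfl fun l hl => by rw [splice_row_in hl]⟩
  · intro w hw
    rw [mem_fib, key_eq_iff t ht]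
    exact ⟨fun i hi => splice_row_out hi, fun j => by
      rw [hsum x y (fun i hi => (hyx i hi).symm) w hw j]
      exact Finset.sum_congr rfl fun l hl => by rw [splice_row_in hl]⟩
  · intro w hw
    apply Mat.ext; funext i
    by_cases hi : i ∈ t
    · rw [splice_row_in hi, splice_row_in hi]
    · rw [splice_row_out hi, ((key_eq_iff t ht w y).1 (mem_fib.1 hw)).1 i hi]
  · intro w hw
    apply Mat.ext; funext i
    by_cases hi : i ∈ t
    · rw [splice_row_in hi, splice_row_in hi]
    · rw [splice_row_out hi, ((key_eq_iff t ht w x).1 (mem_fib.1 hw)).1 i hi]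

lemma disjoint_nonneg {s t : Finset A} (hs : s.Nonempty) (ht : t.Nonempty) (hd : Disjoint s t)
    (f : Mat r c → ℝ) : 0 ≤ ip (dev (key s) f) (dev (key t) f) := by
  refine ip_dev_dev_nonneg f fun g => avg_comm ?_ ?_ ?_ ?_ g
  · intro x y h1 h2
    rw [key_eq_iff s hs] at h1; rw [key_eq_iff t ht] at h2
    apply Mat.ext; funext i
    by_cases hi : i ∈ s
    · exact h2.1 i fun hi' => Finset.disjoint_left.1 hd hi hi'
    · exact h1.1 i hi
  · exact fun x z => ⟨swap_exists hs ht hd, swap_exists ht hs hd.symm⟩
  · exact fun x y h => fib_card_eq hs ht hd h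
  · exact fun x y h => fib_card_eq ht hs hd.symm h

/-- The colour of a column among three entries: the odd one out. -/
def oddOne (w : Fin 3 → Bool) (s : Bool) : Fin 3 :=
  if w 0 = s then 0 else if w 1 = s then 1 else 2

lemma oddOne_spec (w : Fin 3 → Bool) (s : Bool) (h : ∑ i, (w i).toNat = if s then 1 else 2)
    (i : Fin 3) : w i = if oddOne w s = i then s else !s := by
  revert h i; revert s; revert w; decide

lemma card_sites (τ : B → ℕ) (s : Bool) :
    ((univ : Finset {j : B // τ j = 1 ∨ τ j = 2}).filter fun u => decide (τ u.1 = 1) = s).card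
      = ((univ : Finset B).filter fun j => τ j = if s then 1 else 2).card := by
  refine Finset.card_bij (fun u _ => u.1) ?_ (fun a _ b _ h => Subtype.ext h) ?_
  · intro u hu
    simp only [Finset.mem_filter, Finset.mem_univ, true_and] at hu ⊢
    cases s <;> simp at hu ⊢
    · exact u.2.resolve_left hu
    · exact hu
  · intro j hj
    simp only [Finset.mem_filter, Finset.mem_univ, true_and] at hj
    refine ⟨⟨j, ?_⟩, ?_, rfl⟩
    · cases s <;> simp at hj <;> simp [hj]
    · simp only [Finset.mem_filter, Finset.mem_univ, true_and]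
      cases s <;> simp at hj ⊢ <;> simp [hj]

theorem triple_nonneg {a b d : A} (hab : a ≠ b) (had : a ≠ d) (hbd : b ≠ d) (f : Mat r c → ℝ) :
    0 ≤ ip (dev (key {a, b}) f) (dev (key {a, d}) f)
      + ip (dev (key {a, b}) f) (dev (key {b, d}) f)
      + ip (dev (key {a, d}) f) (dev (key {b, d}) f) := by
  classical
  set S : Finset A := {a, b, d} with hS
  have hSne : S.Nonempty := ⟨a, by simp [hS]⟩
  have hsumS : ∀ F : A → ℕ, ∑ l ∈ S, F l = F a + F b + F d := by
    intro F; rw [hS, Finset.sum_insert (by simp [hab, had]), Finset.sum_pair hbd]; ring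
  let v : Fin 3 → A := ![a, b, d]
  let p : Fin 3 → Finset A := ![{b, d}, {a, d}, {a, b}]
  have hp : ∀ k, (p k).Nonempty := by
    intro k; fin_cases k <;> simp [p]
  have hpsum : ∀ k (F : A → ℕ), ∑ l ∈ S, F l = ∑ l ∈ p k, F l + F (v k) := by
    intro k F; rw [hsumS]
    fin_cases k
    · simp [p, v, Finset.sum_pair hbd]; ring
    · simp [p, v, Finset.sum_pair had]; ring
    · simp [p, v, Finset.sum_pair hab]
  have hpmem : ∀ k i, i ∈ p k ↔ (i ∈ S ∧ i ≠ v k) := by
    intro k i
    fin_cases k <;>
      · simp [p, v, hS]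
        constructor
        · rintro (rfl | rfl) <;> simp [hab, had, hbd, hab.symm, had.symm, hbd.symm]
        · rintro ⟨h, hne⟩; tauto
  have hkey : ∀ k (x y : Mat r c), key (p k) y = key (p k) x ↔
      key S y = key S x ∧ y.1 (v k) = x.1 (v k) := by
    intro k x y
    rw [key_eq_iff _ (hp k), key_eq_iff S hSne]
    constructor
    · rintro ⟨h1, h2⟩
      have hv : y.1 (v k) = x.1 (v k) := h1 _ fun h => ((hpmem k _).1 h).2 rfl
      exact ⟨⟨fun i hi => h1 i fun h => hi ((hpmem k i).1 h).1,
        fun j => by rw [hpsum k, hpsum k, h2 j, hv]⟩, hv⟩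
    · rintro ⟨⟨h1, h2⟩, hv⟩
      refine ⟨fun i hi => ?_, fun j => ?_⟩
      · by_cases hiS : i ∈ S
        · have : i = v k := by by_contra hne; exact hi ((hpmem k i).2 ⟨hiS, hne⟩)
          rw [this, hv]
        · exact h1 i hiS
      · have := h2 j; rw [hpsum k, hpsum k, hv] at this; omega
  -- the fibre containing `x₀`
  have fibre : ∀ z, ip (fun x : {x // key S x = z} => (∑ k, dev (key (p k)) f) x.1) (fun x => f x.1)
      ≤ ip (fun x : {x // key S x = z} => (∑ k, dev (key (p k)) f) x.1)
          (fun x => (∑ k, dev (key (p k)) f) x.1) := by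
    intro z
    by_cases hz : ∃ x₀ : Mat r c, key S x₀ = z
    swap
    · haveI : IsEmpty {x : Mat r c // key S x = z} := ⟨fun x => hz ⟨x.1, x.2⟩⟩
      simp [ip]
    obtain ⟨x₀, rfl⟩ := hz
    let τ : B → ℕ := fun j => ∑ l ∈ S, (x₀.1 l j).toNat
    let U := {j : B // τ j = 1 ∨ τ j = 2}
    let σ : U → Bool := fun u => decide (τ u.1 = 1)
    let n1 : ℕ := ((univ : Finset B).filter fun j => τ j = 1).card
    let n2 : ℕ := ((univ : Finset B).filter fun j => τ j = 2).card
    let n3 : ℕ := ((univ : Finset B).filter fun j => τ j = 3).card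
    let δ : Fin 3 → ℤ := fun i => (r (v i) : ℤ) - n3 - n2
    have hτ : ∀ x : Mat r c, key S x = key S x₀ → ∀ j,
        (x.1 a j).toNat + (x.1 b j).toNat + (x.1 d j).toNat = τ j := by
      intro x hx j
      rw [← hsumS (fun l => (x.1 l j).toNat)]; exact ((key_eq_iff S hSne _ _).1 hx).2 j
    have hτle : ∀ j, τ j ≤ 3 := by
      intro j; rw [← hτ x₀ rfl j]
      cases x₀.1 a j <;> cases x₀.1 b j <;> cases x₀.1 d j <;> simp
    -- row sums in terms of colours
    have hrow : ∀ (w : Fin 3 → B → Bool) (κ : U → Fin 3) (i : Fin 3),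
        (∀ (u : U), w i u.1 = if κ u = i then σ u else !σ u) →
        (∀ j, ¬ (τ j = 1 ∨ τ j = 2) → w i j = decide (τ j = 3)) →
        ((∑ j, (w i j).toNat : ℕ) : ℤ) = (∑ u, if κ u = i then Colour.sgn σ u else 0) + n3 + n2 := by
      intro w κ i hu hout
      rw [← Fintype.sum_subtype_add_sum_subtype (fun j => τ j = 1 ∨ τ j = 2)]
      push_cast
      have e1 : (n2 : ℤ) = ∑ u : U, if σ u then (0:ℤ) else 1 := by
        simp only [n2]
        have := card_sites τ false
        simp only [Bool.false_eq_true, if_false] at this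
        rw [← this, Finset.card_filter]; push_cast
        refine Finset.sum_congr rfl fun u _ => ?_
        cases h : σ u <;> simp [σ] at h <;> simp [h]
      have e2 : (n3 : ℤ) = ∑ j : {j : B // ¬ (τ j = 1 ∨ τ j = 2)}, if τ j.1 = 3 then (1:ℤ) else 0 := by
        simp only [n3]
        rw [Finset.card_filter]; push_cast
        rw [← Fintype.sum_subtype_add_sum_subtype (fun j => τ j = 1 ∨ τ j = 2)]
        rw [Finset.sum_eq_zero (s := (univ : Finset {j : B // τ j = 1 ∨ τ j = 2}))]
        · simp
        · intro u _; rcases u.2 with h | h <;> simp [h]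
      rw [e1, e2, add_right_comm, ← Finset.sum_add_distrib]
      congr 1
      · refine Finset.sum_congr rfl fun u _ => ?_
        rw [hu u]; by_cases h : κ u = i <;> cases hs : σ u <;> simp [h, Colour.sgn, hs]
      · refine Finset.sum_congr rfl fun j _ => ?_
        rw [hout j.1 j.2]; by_cases h : τ j.1 = 3 <;> simp [h]
    have hout : ∀ x : Mat r c, key S x = key S x₀ → ∀ i j, ¬ (τ j = 1 ∨ τ j = 2) →
        x.1 (v i) j = decide (τ j = 3) := by
      intro x hx i j hj
      have h := hτ x hx j; have := hτle j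
      fin_cases i <;> simp [v] <;> revert h <;>
        cases x.1 a j <;> cases x.1 b j <;> cases x.1 d j <;> simp <;> omega
    have hin : ∀ x : Mat r c, key S x = key S x₀ → ∀ (u : U),
        ∑ i, (x.1 (v i) u.1).toNat = if σ u then 1 else 2 := by
      intro x hx u
      rw [Fin.sum_univ_three]; simp only [v, Matrix.cons_val_zero, Matrix.cons_val_one, Matrix.cons_val_two, Matrix.head_cons, Matrix.tail_cons, Matrix.cons_val]
      rw [hτ x hx u.1]; rcases u.2 with h | h <;> simp [σ, h]
    let toC : {x : Mat r c // key S x = key S x₀} → Colour.St σ δ := fun x =>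
      ⟨fun u => oddOne (fun i => x.1.1 (v i) u.1) (σ u), fun i => by
        have := hrow (fun i j => x.1.1 (v i) j) (fun u => oddOne (fun i => x.1.1 (v i) u.1) (σ u)) i
          (fun u => oddOne_spec _ _ (hin x.1 x.2 u) i) (fun j hj => hout x.1 x.2 i j hj)
        rw [x.1.2.1 (v i)] at this
        simp only [δ]; linarith⟩
    let ent : (U → Fin 3) → Fin 3 → B → Bool := fun κ i j =>
      if h : τ j = 1 ∨ τ j = 2 then (if κ ⟨j, h⟩ = i then σ ⟨j, h⟩ else !σ ⟨j, h⟩) else decide (τ j = 3)
    have hent : ∀ (κ : U → Fin 3) j, (ent κ 0 j).toNat + (ent κ 1 j).toNat + (ent κ 2 j).toNat = τ j := by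
      intro κ j
      simp only [ent]
      by_cases h : τ j = 1 ∨ τ j = 2
      · simp only [dif_pos h]
        generalize κ ⟨j, h⟩ = k
        rcases h with h | h <;> fin_cases k <;> simp [σ, h]
      · simp only [dif_neg h]
        have := hτle j
        by_cases h3 : τ j = 3
        · simp [h3]
        · simp [h3]; omega
    let mk : Colour.St σ δ → A → B → Bool := fun κ i j =>
      if i = a then ent κ.1 0 j else if i = b then ent κ.1 1 j else if i = d then ent κ.1 2 j
      else x₀.1 i j
    have mk_row : ∀ κ k, mk κ (v k) = ent κ.1 k := by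
      intro κ k; funext j
      fin_cases k <;> simp [mk, v, hab.symm, had.symm, hbd.symm]
    have mk_out : ∀ κ i, i ∉ S → mk κ i = x₀.1 i := by
      intro κ i hi; funext j
      simp [hS] at hi
      simp [mk, hi]
    have mk_ok : ∀ κ, (∀ i, ∑ j, (mk κ i j).toNat = r i) ∧ ∀ j, ∑ i, (mk κ i j).toNat = c j := by
      intro κ
      have hrw : ∀ k, ∑ j, (mk κ (v k) j).toNat = r (v k) := by
        intro k
        rw [mk_row]
        have := hrow (fun i j => ent κ.1 i j) κ.1 k (fun u => by simp only [ent, dif_pos u.2]; rfl)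
          (fun j hj => by simp only [ent, dif_neg hj])
        rw [κ.2 k] at this
        simp only [δ] at this
        omega
      refine ⟨fun i => ?_, fun j => ?_⟩
      · by_cases hi : i ∈ S
        · simp [hS] at hi
          rcases hi with rfl | rfl | rfl
          · exact hrw 0
          · exact hrw 1
          · exact hrw 2
        · rw [mk_out κ i hi]; exact x₀.2.1 i
      · rw [← x₀.2.2 j, ← Finset.sum_add_sum_compl S,
          ← Finset.sum_add_sum_compl S (fun i => (x₀.1 i j).toNat)]
        congr 1
        · rw [hsumS, hsumS]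
          have h0 := congrFun (mk_row κ 0) j; have h1 := congrFun (mk_row κ 1) j
          have h2 := congrFun (mk_row κ 2) j
          simp [v] at h0 h1 h2
          rw [h0, h1, h2, hent, ← hτ x₀ rfl j]
        · exact Finset.sum_congr rfl fun i hi => by rw [mk_out κ i (Finset.mem_compl.1 hi)]
    have mk_key : ∀ κ, key S (⟨mk κ, mk_ok κ⟩ : Mat r c) = key S x₀ := by
      intro κ
      rw [key_eq_iff S hSne]
      refine ⟨fun i hi => mk_out κ i hi, fun j => ?_⟩
      rw [hsumS, hsumS]
      have h0 := congrFun (mk_row κ 0) j; have h1 := congrFun (mk_row κ 1) j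
      have h2 := congrFun (mk_row κ 2) j
      simp [v] at h0 h1 h2
      simp only [h0, h1, h2]
      rw [hent, ← hτ x₀ rfl j]
    let e : Colour.St σ δ ≃ {x : Mat r c // key S x = key S x₀} :=
      { toFun := fun κ => ⟨⟨mk κ, mk_ok κ⟩, mk_key κ⟩
        invFun := toC
        left_inv := by
          intro κ; apply Subtype.ext; funext u
          simp only [toC, mk_row, ent, dif_pos u.2]
          generalize κ.1 u = k
          rcases u.2 with h | h <;> fin_cases k <;> simp [σ, h, oddOne]
        right_inv := by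
          intro x; apply Subtype.ext; apply Mat.ext; funext i j
          by_cases hi : i ∈ S
          · obtain ⟨k, rfl⟩ : ∃ k, i = v k := by
              simp [hS] at hi
              rcases hi with rfl | rfl | rfl
              · exact ⟨0, rfl⟩
              · exact ⟨1, rfl⟩
              · exact ⟨2, rfl⟩
            show mk (toC x) (v k) j = _
            rw [mk_row]; simp only [ent]
            by_cases hj : τ j = 1 ∨ τ j = 2
            · rw [dif_pos hj]
              exact (oddOne_spec _ _ (hin x.1 x.2 ⟨j, hj⟩) k).symm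
            · rw [dif_neg hj, hout x.1 x.2 k j hj]
          · show mk (toC x) i j = _
            rw [mk_out _ i hi, ((key_eq_iff S hSne _ _).1 x.2).1 i hi] }
    have hkk : ∀ k κ κ', key (p k) (e κ).1 = key (p k) (e κ').1 ↔
        Colour.key k κ = Colour.key k κ' := by
      intro k κ κ'
      rw [hkey]
      simp only [e, Equiv.coe_fn_mk, mk_key, true_and, mk_row]
      constructor
      · intro h; funext u
        have := congrFun h u.1
        simp only [ent, dif_pos u.2] at this
        simp only [Colour.key, decide_eq_decide]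
        by_cases h1 : κ.1 u = k <;> by_cases h2 : κ'.1 u = k <;>
          cases hs : σ u <;> simp [h1, h2, hs] at this ⊢
      · intro h; funext j
        simp only [ent]
        by_cases hj : τ j = 1 ∨ τ j = 2
        · simp only [dif_pos hj]
          have := congrFun h ⟨j, hj⟩
          simp only [Colour.key, decide_eq_decide] at this
          simp [this]
        · simp [hj]
    have hdev : ∀ κ, (∑ k, dev (key (p k)) f) (e κ).1 =
        ((∑ k : Fin 3, dev (Colour.key (σ := σ) (δ := δ) k)) (fun t => f (e t).1)) κ := by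
      intro κ
      simp only [Finset.sum_apply, LinearMap.sum_apply]
      exact Finset.sum_congr rfl fun k _ => dev_transfer (key S) (key (p k)) (Colour.key k) _ e
        (fun x y h => ((hkey k x y).1 h).1) (hkk k) f κ
    have := Colour.three_rows (σ := σ) (δ := δ) (fun t => f (e t).1)
    simp only [ip] at this ⊢
    rw [← e.sum_comp, ← e.sum_comp]
    simp only [hdev]
    exact this
  have hbig : ip (∑ k, dev (key (p k)) f) f ≤ ip (∑ k, dev (key (p k)) f) (∑ k, dev (key (p k)) f) := by
    haveI : Fintype (Set.range (key (r := r) (c := c) S)) := Fintype.ofFinite _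
    let κ' : Mat r c → Set.range (key (r := r) (c := c) S) := fun x => ⟨key S x, x, rfl⟩
    rw [ip_fibrewise κ', ip_fibrewise κ']
    refine Finset.sum_le_sum fun z _ => ?_
    have := fibre z.1
    let e' : {x // κ' x = z} ≃ {x : Mat r c // key S x = z.1} :=
      Equiv.subtypeEquivRight fun x => by simp [κ', Subtype.ext_iff]
    simp only [ip] at this ⊢
    rw [← e'.sum_comp, ← e'.sum_comp] at this
    exact this
  simp only [Fin.sum_univ_three, p, Matrix.cons_val_zero, Matrix.cons_val_one, Matrix.cons_val_two,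
    Matrix.head_cons, Matrix.tail_cons, Matrix.cons_val, ip_add_left] at hbig
  have hadd : ∀ g h1 h2 h3 : Mat r c → ℝ, ip g (h1 + h2 + h3) = ip g h1 + ip g h2 + ip g h3 := by
    intro g h1 h2 h3
    rw [ip_comm, ip_add_left, ip_add_left, ip_comm h1, ip_comm h2, ip_comm h3]
  simp only [hadd, ip_dev_self] at hbig
  have := ip_comm (dev (key {a, b}) f) (dev (key {a, d}) f)
  have := ip_comm (dev (key {a, b}) f) (dev (key {b, d}) f)
  have := ip_comm (dev (key {a, d}) f) (dev (key {b, d}) f)
  linarith

/-- Twice the sum of all row-pair resampling projections. -/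
noncomputable def R2 : (Mat r c → ℝ) →ₗ[ℝ] (Mat r c → ℝ) :=
  ∑ a : A, ∑ b ∈ univ.erase a, dev (key ({a, b} : Finset A))

lemma R2_symm (f g : Mat r c → ℝ) : ip (R2 f) g = ip f (R2 g) := by
  simp only [R2, LinearMap.sum_apply, ip_sum_left, ip_sum_right, dev_symm]

lemma ip_R2_self (f : Mat r c → ℝ) :
    ip (R2 f) f = ∑ a : A, ∑ b ∈ univ.erase a, ip (dev (key {a, b}) f) (dev (key {a, b}) f) := by
  simp only [R2, LinearMap.sum_apply, ip_sum_left, ip_dev_self]

theorem two_R2_le (f : Mat r c → ℝ) : 2 * ip (R2 f) f ≤ ip (R2 f) (R2 f) := by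
  classical
  set u : A → A → Mat r c → ℝ := fun a b => if a = b then 0 else dev (key {a, b}) f with hu
  have usymm : ∀ a b, u a b = u b a := by
    intro a b; simp only [hu, eq_comm (a := a) (b := b), Finset.pair_comm a b]
  set G : A → A → A → A → ℝ := fun a b a' b' => ip (u a b) (u a' b') with hG
  have G0 : ∀ a a' b', G a a a' b' = 0 := by intro a a' b'; simp [hG, hu, ip]
  have Gs1 : ∀ a b a' b', G a b a' b' = G b a a' b' := by intro a b a' b'; simp only [hG, usymm a b]
  have Gs2 : ∀ a b a' b', G a b a' b' = G a b b' a' := by intro a b a' b'; simp only [hG, usymm a' b']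
  have Gc : ∀ a b a' b', G a b a' b' = G a' b' a b := by intro a b a' b'; simp only [hG]; exact ip_comm _ _
  have hR : R2 f = ∑ a, ∑ b, u a b := by
    simp only [R2, LinearMap.sum_apply]
    refine Finset.sum_congr rfl fun a _ => ?_
    rw [← Finset.add_sum_erase univ _ (Finset.mem_univ a)]
    simp only [hu, if_true, zero_add]
    exact Finset.sum_congr rfl fun b hb => by rw [if_neg (Finset.ne_of_mem_erase hb).symm]
  have hL : ip (R2 f) f = ∑ a, ∑ b, G a b a b := by
    rw [hR]; simp only [ip_sum_left]
    refine Finset.sum_congr rfl fun a _ => Finset.sum_congr rfl fun b _ => ?_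
    simp only [hG, hu]
    split_ifs
    · simp [ip]
    · exact ip_dev_self _ _
  have hQ : ip (R2 f) (R2 f) = ∑ a, ∑ b, ∑ a', ∑ b', G a b a' b' := by
    rw [hR]; simp only [ip_sum_left, hG]
    refine Finset.sum_congr rfl fun a _ => Finset.sum_congr rfl fun b _ => ?_
    rw [ip_sum_right]
    exact Finset.sum_congr rfl fun a' _ => ip_sum_right _ _ _
  -- disjoint pairs contribute nonnegatively
  have hdis : ∀ a b a' b', a ≠ a' → a ≠ b' → b ≠ a' → b ≠ b' → 0 ≤ G a b a' b' := by
    intro a b a' b' h1 h2 h3 h4
    simp only [hG, hu]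
    split_ifs with e1 e2 e2
    · simp [ip]
    · simp [ip]
    · simp [ip]
    · refine disjoint_nonneg ⟨a, by simp⟩ ⟨a', by simp⟩ ?_ f
      rw [Finset.disjoint_left]; intro i hi hi'
      simp at hi hi'; rcases hi with rfl | rfl <;> rcases hi' with h | h <;> contradiction
  -- the sum over ordered triples of distinct indices
  set T : A → A → A → ℝ := fun a b d => if b = d then 0 else G a b a d with hT
  have htri : ∀ a b d, 0 ≤ T a b d + T b a d + T d a b := by
    intro a b d
    simp only [hT]
    by_cases hab : a = b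
    · subst hab
      by_cases had : a = d
      · subst had; simp
      · simp [had, G0, Gc a d a a]
    by_cases had : a = d
    · subst had; simp [hab, G0, Gc a b a a, Ne.symm hab, Gc b a b a]
    by_cases hbd : b = d
    · subst hbd; simp [hab, Gc b a b b, G0]
    simp only [hbd, had, hab, if_false]
    have := triple_nonneg hab had hbd f
    have e1 : G a b a d = ip (dev (key {a, b}) f) (dev (key {a, d}) f) := by simp [hG, hu, hab, had]
    have e2 : G b a b d = ip (dev (key {a, b}) f) (dev (key {b, d}) f) := by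
      rw [Gs1]; simp [hG, hu, hab, hbd]
    have e3 : G d a d b = ip (dev (key {a, d}) f) (dev (key {b, d}) f) := by
      rw [Gs1, Gs2]; simp [hG, hu, had, hbd]
    rw [e1, e2, e3]; linarith
  have hTsum : 0 ≤ ∑ a, ∑ b, ∑ d, T a b d := by
    have h3 : (∑ a, ∑ b, ∑ d, (T a b d + T b a d + T d a b)) = 3 * ∑ a, ∑ b, ∑ d, T a b d := by
      simp only [Finset.sum_add_distrib]
      rw [Finset.sum_comm (f := fun a b => ∑ d, T b a d)]
      have : (∑ a, ∑ b, ∑ d, T d a b) = ∑ a, ∑ b, ∑ d, T a b d := by
        calc (∑ a, ∑ b, ∑ d, T d a b) = ∑ a, ∑ d, ∑ b, T d a b :=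
              Finset.sum_congr rfl fun a _ => Finset.sum_comm
          _ = ∑ d, ∑ a, ∑ b, T d a b := Finset.sum_comm
      rw [this]; ring
    have : 0 ≤ ∑ a, ∑ b, ∑ d, (T a b d + T b a d + T d a b) :=
      Finset.sum_nonneg fun a _ => Finset.sum_nonneg fun b _ => Finset.sum_nonneg fun d _ => htri a b d
    linarith
  -- split each term by the intersection of the two pairs
  have hlow : ∀ a b, a ≠ b → ∀ a' b', (if a = a' ∧ b = b' then G a b a b else 0) +
      (if a = b' ∧ b = a' then G a b a b else 0) + ((if a = a' then T a b b' else 0) +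
      (if a = b' then T a b a' else 0) + (if b = a' then T b a b' else 0) +
      (if b = b' then T b a a' else 0)) ≤ G a b a' b' := by
    intro a b hab a' b'
    simp only [hT]
    by_cases h1 : a = a'
    · subst h1
      have k1 : ¬ (a = b' ∧ b = a) := fun h => hab h.2.symm
      by_cases h4 : b = b'
      · subst h4
        simp only [k1, hab, Ne.symm hab, if_true, if_false, and_self]
        linarith
      · by_cases h2 : a = b'
        · subst h2
          have z : G a b a a = 0 := by rw [Gc]; exact G0 _ _ _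
          have z' : G b a b a = G a b a b := by rw [Gs1, Gs2]
          simp only [k1, h4, hab, Ne.symm hab, and_false, if_true, if_false, z]
          linarith
        · simp only [k1, h4, h2, Ne.symm hab, and_false, if_true, if_false]
          linarith
    by_cases h2 : a = b'
    · subst h2
      have k1 : ¬ (a = a' ∧ b = a) := fun h => h1 h.1
      by_cases h3 : b = a'
      · subst h3
        have z : G a b b a = G a b a b := Gs2 _ _ _ _
        simp only [k1, h1, Ne.symm hab, if_true, if_false, and_self, z]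
        linarith
      · have z : G a b a' a = G a b a a' := Gs2 _ _ _ _
        simp only [k1, h1, h3, Ne.symm hab, and_false, if_true, if_false, z]
        linarith
    by_cases h3 : b = a'
    · subst h3
      have k1 : ¬ (a = b ∧ b = b') := fun h => hab h.1
      by_cases h4 : b = b'
      · subst h4
        have z : G a b b b = 0 := by rw [Gc]; exact G0 _ _ _
        simp only [k1, h2, hab, false_and, if_true, if_false, z]
        linarith [Gc b a b b, G0 b b a]
      · have z : G a b b b' = G b a b b' := Gs1 _ _ _ _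
        simp only [k1, h2, h4, hab, false_and, if_true, if_false, z]
        linarith
    by_cases h4 : b = b'
    · subst h4
      have z : G a b a' b = G b a b a' := by rw [Gs1, Gs2]
      simp only [h1, h2, h3, false_and, if_true, if_false, z]
      linarith
    have := hdis a b a' b' h1 h2 h3 h4
    simp only [h1, h2, h3, h4, false_and, if_false]
    linarith
  have hpair : ∀ a b, a ≠ b → 2 * G a b a b + 2 * ((∑ d, T a b d) + ∑ d, T b a d)
      ≤ ∑ a', ∑ b', G a b a' b' := by
    intro a b hab
    refine le_trans (le_of_eq ?_) (Finset.sum_le_sum fun a' _ => Finset.sum_le_sum fun b' _ =>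
      hlow a b hab a' b')
    simp only [Finset.sum_add_distrib]
    have f1 : ∀ (F : A → ℝ) (x : A), (∑ a', ∑ b' : A, if x = a' then F b' else 0) = ∑ b', F b' := by
      intro F x
      rw [Finset.sum_comm]
      exact Finset.sum_congr rfl fun b' _ => by simp
    have f2 : ∀ (F : A → ℝ) (x : A), (∑ a' : A, ∑ b', if x = b' then F a' else 0) = ∑ a', F a' :=
      fun F x => Finset.sum_congr rfl fun a' _ => by simp
    have f3 : (∑ a', ∑ b', if a = a' ∧ b = b' then G a b a b else 0) = G a b a b := by
      simp only [ite_and]; rw [f1 (fun b' => if b = b' then G a b a b else 0) a]; simp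
    have f4 : (∑ a', ∑ b', if a = b' ∧ b = a' then G a b a b else 0) = G a b a b := by
      simp only [ite_and]; rw [f2 (fun a' => if b = a' then G a b a b else 0) a]; simp
    rw [f3, f4, f1 (fun b' => T a b b') a, f2 (fun a' => T a b a') a,
      f1 (fun b' => T b a b') b, f2 (fun a' => T b a a') b]
    ring
  have hdiag : ∀ a, (∑ a', ∑ b', G a a a' b') = 0 ∧ (∑ d, T a a d) = 0 ∧ G a a a a = 0 := fun a =>
    ⟨Finset.sum_eq_zero fun _ _ => Finset.sum_eq_zero fun _ _ => G0 _ _ _,
      Finset.sum_eq_zero fun d _ => by simp [hT, G0], G0 _ _ _⟩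
  have hall : ∀ a b, 2 * G a b a b + 2 * ((∑ d, T a b d) + ∑ d, T b a d)
      ≤ ∑ a', ∑ b', G a b a' b' := by
    intro a b
    rcases eq_or_ne a b with rfl | hab
    · obtain ⟨h1, h2, h3⟩ := hdiag a; simp [h1, h2, h3]
    · exact hpair a b hab
  have := Finset.sum_le_sum (s := (univ : Finset A)) fun a _ =>
    Finset.sum_le_sum (s := (univ : Finset A)) fun b _ => hall a b
  rw [← hQ] at this
  simp only [mul_add, Finset.sum_add_distrib, ← Finset.mul_sum] at this
  rw [Finset.sum_comm (f := fun a b => ∑ d, T b a d), ← hL] at this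
  linarith

lemma exists_switch_partner {s : Finset A} {z : Mat r c} {a : A} {j l : B}
    (ha : a ∈ s) (hj : z.1 a j = false) (hl : z.1 a l = true)
    (hjl : ∑ i ∈ s, (z.1 i l).toNat ≤ ∑ i ∈ s, (z.1 i j).toNat) :
    ∃ b ∈ s, b ≠ a ∧ z.1 b j = true ∧ z.1 b l = false := by
  by_contra h
  push Not at h
  rw [← Finset.add_sum_erase s _ ha, ← Finset.add_sum_erase s _ ha, hj, hl] at hjl
  have : ∑ i ∈ s.erase a, (z.1 i j).toNat ≤ ∑ i ∈ s.erase a, (z.1 i l).toNat := by
    refine Finset.sum_le_sum fun i hi => ?_
    have := h i (Finset.mem_of_mem_erase hi) (Finset.ne_of_mem_erase hi)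
    cases hh : z.1 i j
    · simp
    · simp [this hh]
  simp at hjl; omega

/-- Flip the alternating rectangle on rows `a, b` and columns `j, l`. -/
def flip4 (z : Mat r c) {a b : A} {j l : B} (hab : a ≠ b) (hjl : j ≠ l)
    (h1 : z.1 a j = false) (h2 : z.1 a l = true) (h3 : z.1 b j = true) (h4 : z.1 b l = false) :
    Mat r c :=
  ⟨fun i k => if (i = a ∨ i = b) ∧ (k = j ∨ k = l) then !z.1 i k else z.1 i k, by
    refine ⟨fun i => ?_, fun k => ?_⟩
    · rw [← z.2.1 i]
      by_cases hi : i = a ∨ i = b
      · rw [← Finset.sum_add_sum_compl {j, l}, ← Finset.sum_add_sum_compl {j, l} (fun k => (z.1 i k).toNat)]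
        congr 1
        · rw [Finset.sum_pair hjl, Finset.sum_pair hjl]
          rcases hi with rfl | rfl <;> simp [h1, h2, h3, h4]
        · refine Finset.sum_congr rfl fun k hk => ?_
          simp at hk; simp [hk]
      · exact Finset.sum_congr rfl fun k _ => by simp [hi]
    · rw [← z.2.2 k]
      by_cases hk : k = j ∨ k = l
      · rw [← Finset.sum_add_sum_compl {a, b}, ← Finset.sum_add_sum_compl {a, b} (fun i => (z.1 i k).toNat)]
        congr 1
        · rw [Finset.sum_pair hab, Finset.sum_pair hab]
          rcases hk with rfl | rfl <;> simp [h1, h2, h3, h4]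
        · refine Finset.sum_congr rfl fun i hi => ?_
          simp at hi; simp [hi]
      · exact Finset.sum_congr rfl fun i _ => by simp [hk]⟩

lemma key_flip4 (z : Mat r c) {a b : A} {j l : B} (hab : a ≠ b) (hjl : j ≠ l)
    (h1 : z.1 a j = false) (h2 : z.1 a l = true) (h3 : z.1 b j = true) (h4 : z.1 b l = false) :
    key {a, b} (flip4 z hab hjl h1 h2 h3 h4) = key {a, b} z := by
  rw [key_eq_iff _ ⟨a, by simp⟩]
  refine ⟨fun i hi => ?_, fun k => ?_⟩
  · funext k; simp at hi; simp [flip4, hi]
  · rw [Finset.sum_pair hab, Finset.sum_pair hab]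
    by_cases hk : k = j ∨ k = l
    · rcases hk with rfl | rfl <;> simp [flip4, h1, h2, h3, h4]
    · simp [flip4, hk]

/-- A function invariant under every row-pair resampling is constant. -/
theorem const_of_invariant (f : Mat r c → ℝ)
    (hf : ∀ a b, a ≠ b → ∀ x y : Mat r c, key {a, b} y = key {a, b} x → f y = f x) :
    ∀ x y, f x = f y := by
  suffices H : ∀ (s : Finset A) (n : ℕ) (a : A) (x y : Mat r c), a ∈ s →
      (∀ i, i ∉ s → x.1 i = y.1 i) → ((univ : Finset B).filter fun k => x.1 a k ≠ y.1 a k).card ≤ n →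
      (∀ x' y' : Mat r c, (∀ i, i ∉ s.erase a → x'.1 i = y'.1 i) → f x' = f y') → f x = f y by
    intro x y
    suffices G : ∀ (s : Finset A) (x y : Mat r c), (∀ i, i ∉ s → x.1 i = y.1 i) → f x = f y from
      G univ x y (fun i hi => absurd (Finset.mem_univ i) hi)
    intro s
    induction s using Finset.strongInduction with
    | H s ih =>
      intro x y h
      by_cases hs : s.Nonempty
      · obtain ⟨a, ha⟩ := hs
        exact H s _ a x y ha h le_rfl (ih _ (Finset.erase_ssubset ha))
      · rw [Finset.not_nonempty_iff_eq_empty] at hs; subst hs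
        rw [Mat.ext (funext fun i => h i (Finset.notMem_empty i))]
  intro s n
  induction n using Nat.strong_induction_on with
  | _ n ih =>
    intro a x y ha hout hn hnext
    by_cases hrow : x.1 a = y.1 a
    · refine hnext x y fun i hi => ?_
      by_cases hia : i = a
      · rw [hia, hrow]
      · exact hout i fun h => hi (Finset.mem_erase.2 ⟨hia, h⟩)
    -- two opposite disagreements in row `a`
    obtain ⟨j, hj1, hj2⟩ : ∃ j, x.1 a j = true ∧ y.1 a j = false := by
      by_contra h; push Not at h
      refine hrow (funext fun k => toNat_inj' ?_)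
      have hle : ∀ k ∈ (univ : Finset B), (x.1 a k).toNat ≤ (y.1 a k).toNat := by
        intro k _; cases hh : x.1 a k
        · simp
        · simp [h k hh]
      exact (Finset.sum_eq_sum_iff_of_le hle).1 (by rw [x.2.1, y.2.1]) k (Finset.mem_univ k)
    obtain ⟨l, hl1, hl2⟩ : ∃ l, y.1 a l = true ∧ x.1 a l = false := by
      by_contra h; push Not at h
      refine hrow (funext fun k => toNat_inj' ?_)
      have hle : ∀ k ∈ (univ : Finset B), (y.1 a k).toNat ≤ (x.1 a k).toNat := by
        intro k _; cases hh : y.1 a k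
        · simp
        · simp [h k hh]
      exact ((Finset.sum_eq_sum_iff_of_le hle).1 (by rw [x.2.1, y.2.1]) k (Finset.mem_univ k)).symm
    have hne : j ≠ l := fun e => by rw [e, hl2] at hj1; exact Bool.noConfusion hj1
    have hcol : ∀ k, ∑ i ∈ s, (x.1 i k).toNat = ∑ i ∈ s, (y.1 i k).toNat := by
      intro k
      have h1 := x.2.2 k; have h2 := y.2.2 k
      rw [← Finset.sum_add_sum_compl s] at h1 h2
      have : ∑ i ∈ sᶜ, (x.1 i k).toNat = ∑ i ∈ sᶜ, (y.1 i k).toNat :=
        Finset.sum_congr rfl fun i hi => by rw [hout i (Finset.mem_compl.1 hi)]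
      omega
    rcases le_total (∑ i ∈ s, (y.1 i l).toNat) (∑ i ∈ s, (y.1 i j).toNat) with hc | hc
    · obtain ⟨b, hb, hba, hb1, hb2⟩ := exists_switch_partner ha hj2 hl1 hc
      set y' := flip4 y hba.symm hne hj2 hl1 hb1 hb2 with hy'
      rw [← hf a b hba.symm y y' (key_flip4 y hba.symm hne hj2 hl1 hb1 hb2)]
      have hlt : ((univ : Finset B).filter fun k => x.1 a k ≠ y'.1 a k).card <
          ((univ : Finset B).filter fun k => x.1 a k ≠ y.1 a k).card := by
        refine Finset.card_lt_card ((Finset.ssubset_iff_of_subset ?_).2 ⟨j, by simp [hj1, hj2], ?_⟩)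
        · intro k; simp only [Finset.mem_filter, Finset.mem_univ, true_and]
          by_cases hk : k = j ∨ k = l
          · rcases hk with rfl | rfl <;> simp [hy', flip4, hj1, hj2, hl1, hl2]
          · simp [hy', flip4, hk]
        · simp [hy', flip4, hj1, hj2]
      refine ih _ (lt_of_lt_of_le hlt hn) a x y' ha (fun i hi => ?_) le_rfl hnext
      rw [hout i hi]; funext k
      have : ¬ (i = a ∨ i = b) := by rintro (rfl | rfl) <;> contradiction
      simp [hy', flip4, this]
    · rw [← hcol, ← hcol] at hc
      obtain ⟨b, hb, hba, hb1, hb2⟩ := exists_switch_partner ha hl2 hj1 hc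
      set x' := flip4 x hba.symm hne.symm hl2 hj1 hb1 hb2 with hx'
      rw [← hf a b hba.symm x x' (key_flip4 x hba.symm hne.symm hl2 hj1 hb1 hb2)]
      have hlt : ((univ : Finset B).filter fun k => x'.1 a k ≠ y.1 a k).card <
          ((univ : Finset B).filter fun k => x.1 a k ≠ y.1 a k).card := by
        refine Finset.card_lt_card ((Finset.ssubset_iff_of_subset ?_).2 ⟨j, by simp [hj1, hj2], ?_⟩)
        · intro k; simp only [Finset.mem_filter, Finset.mem_univ, true_and]
          by_cases hk : k = j ∨ k = l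
          · rcases hk with rfl | rfl <;> simp [hx', flip4, hj1, hj2, hl1, hl2]
          · simp [hx', flip4, show ¬ (k = l ∨ k = j) from fun h => hk h.symm]
        · simp [hx', flip4, hj1, hj2]
      refine ih _ (lt_of_lt_of_le hlt hn) a x' y ha (fun i hi => ?_) le_rfl hnext
      rw [← hout i hi]; funext k
      have : ¬ (i = a ∨ i = b) := by rintro (rfl | rfl) <;> contradiction
      simp [hx', flip4, this]

/-- The spectral gap of the row-pair resampling operator. -/
theorem poincare (f : Mat r c → ℝ) (h0 : ∑ x, f x = 0) : 2 * ip f f ≤ ip (R2 f) f := by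
  classical
  set R := (R2 : (Mat r c → ℝ) →ₗ[ℝ] _)
  have hker : ∀ g, R g = 0 → ∀ x y, g x = g y := by
    intro g hg
    refine const_of_invariant g fun a b hab x y hxy => ?_
    have h := ip_R2_self (r := r) (c := c) g
    rw [show R2 g = 0 from hg] at h
    have hz : ip (0 : Mat r c → ℝ) g = 0 := by simp [ip]
    rw [hz, eq_comm] at h
    have hd := (Finset.sum_eq_zero_iff_of_nonneg fun a _ =>
      Finset.sum_nonneg fun b _ => ip_self_nonneg _).1 h a (Finset.mem_univ a)
    have := (Finset.sum_eq_zero_iff_of_nonneg fun b _ => ip_self_nonneg _).1 hd b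
      (Finset.mem_erase.2 ⟨hab.symm, Finset.mem_univ b⟩)
    rw [ip_self_eq_zero, dev_apply, sub_eq_zero] at this
    rw [this]; exact avg_congr g hxy
  have hrange : f ∈ LinearMap.range R := by
    rcases isEmpty_or_nonempty (Mat r c) with hE | ⟨⟨x₀⟩⟩
    · exact ⟨0, funext fun x => isEmptyElim x⟩
    let φ : (Mat r c → ℝ) →ₗ[ℝ] ℝ := ∑ x, LinearMap.proj x
    have hφ : ∀ g, φ g = ∑ x, g x := fun g => by simp [φ]
    have hsub : LinearMap.range R ≤ LinearMap.ker φ := by
      rintro _ ⟨g, rfl⟩
      rw [LinearMap.mem_ker, hφ]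
      have h1 : R2 (r := r) (c := c) (fun _ => 1) = 0 := by
        simp only [R2, LinearMap.sum_apply]
        refine Finset.sum_eq_zero fun a _ => Finset.sum_eq_zero fun b _ => ?_
        rw [dev_apply, avg_fixed (fun _ _ _ => rfl), sub_self]
      have := R2_symm (r := r) (c := c) g (fun _ => 1)
      rw [h1] at this
      simpa [ip] using this
    have hk : LinearMap.ker R ≤ Submodule.span ℝ {fun _ => (1 : ℝ)} := by
      intro g hg
      rw [Submodule.mem_span_singleton]
      exact ⟨g x₀, funext fun x => by simpa using hker g hg x₀ x⟩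
    have hk1 : Module.finrank ℝ (LinearMap.ker R) ≤ 1 :=
      (Submodule.finrank_mono hk).trans ((finrank_span_le_card _).trans (by simp))
    have hlt : Module.finrank ℝ (LinearMap.ker φ) < Module.finrank ℝ (Mat r c → ℝ) := by
      refine Submodule.finrank_lt fun htop => ?_
      have : (Pi.single x₀ (1:ℝ)) ∈ LinearMap.ker φ := by rw [htop]; exact Submodule.mem_top
      rw [LinearMap.mem_ker, hφ] at this
      simp at this
    have := LinearMap.finrank_range_add_finrank_ker R
    have heq : LinearMap.range R = LinearMap.ker φ :=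
      Submodule.eq_of_le_of_finrank_le hsub (by omega)
    rw [heq, LinearMap.mem_ker, hφ]; exact h0
  obtain ⟨g, rfl⟩ := hrange
  -- Cauchy–Schwarz in the seminorm of `R2`
  have hpos : ∀ h, 0 ≤ ip (R h) h := fun h => by
    rw [ip_R2_self]; exact Finset.sum_nonneg fun a _ => Finset.sum_nonneg fun b _ => ip_self_nonneg _
  have hge := two_R2_le (r := r) (c := c) g
  have hcs : 0 ≤ ip (R (R g - (2:ℝ) • g)) (R g - (2:ℝ) • g) := hpos _
  simp only [map_sub, map_smul, ip_sub_left, ip_sub_right, ip_smul_left, ip_smul_right] at hcs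
  have e1 : ip (R (R g)) g = ip (R g) (R g) := R2_symm _ _
  linarith

end Bip

end Vale.Agent.P335
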