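import Vale.Agent.P335.Defs
import Vale.Agent.P335.Avg

/-! Basic facts on the switch chain and the passage from a Poincaré inequality to mixing. -/

namespace Vale.Agent.P335

open Finset Classical

variable {n : ℕ}

lemma pm_nbr {S : Finset (Fin n)} {F : Finset (Sym2 (Fin n))} (hF : F ∈ perfectMatchings S) (v : Fin n) :
    {w | s(v, w) ∈ (F : Set (Sym2 (Fin n)))}.ncard = if v ∈ S then 1 else 0 := by
  simp only [perfectMatchings, Finset.mem_filter, Finset.mem_powerset] at hF
  obtain ⟨hsub, _, hone⟩ := hF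
  split_ifs with hv
  · obtain ⟨e, he⟩ := Finset.card_eq_one.1 (hone v hv)
    have hm := Finset.ext_iff.1 he
    simp only [Finset.mem_filter, Finset.mem_singleton] at hm
    obtain ⟨heF, hve⟩ := (hm e).2 rfl
    obtain ⟨w, rfl⟩ := Sym2.mem_iff_exists.1 hve
    rw [Set.ncard_eq_one]
    refine ⟨w, Set.ext fun u => ⟨fun hu => ?_, fun hu => ?_⟩⟩
    · have := (hm s(v, u)).1 ⟨hu, Sym2.mem_mk_left _ _⟩
      exact Sym2.congr_right.1 this
    · rw [Set.mem_singleton_iff] at hu; subst hu; exact heF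
  · rw [Set.ncard_eq_zero]
    refine Set.eq_empty_iff_forall_notMem.2 fun w hw => hv ?_
    have := hsub hw
    rw [Finset.mk_mem_sym2_iff] at this
    exact this.1

lemma move_degree {S : Finset (Fin n)} {p : Finset (Sym2 (Fin n)) × Finset (Sym2 (Fin n))}
    (hp : p ∈ matchingPairs S) (G : SimpleGraph (Fin n)) (v : Fin n) :
    ((move G p.1 p.2).neighborSet v).ncard = (G.neighborSet v).ncard := by
  simp only [matchingPairs, Finset.mem_filter, Finset.mem_product] at hp
  unfold move
  split_ifs with h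
  · have hnd : ∀ e ∈ p.2, ¬ e.IsDiag := by
      have := hp.1.2
      simp only [perfectMatchings, Finset.mem_filter] at this
      exact this.2.1
    set N1 := {w | s(v, w) ∈ (p.1 : Set (Sym2 (Fin n)))}
    set N2 := {w | s(v, w) ∈ (p.2 : Set (Sym2 (Fin n)))}
    have e : (SimpleGraph.fromEdgeSet ((G.edgeSet \ ↑p.1) ∪ ↑p.2)).neighborSet v
        = (G.neighborSet v \ N1) ∪ N2 := by
      ext w
      simp only [SimpleGraph.mem_neighborSet, SimpleGraph.fromEdgeSet_adj, Set.mem_union, Set.mem_diff,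
        SimpleGraph.mem_edgeSet, N1, N2, Set.mem_setOf_eq]
      constructor
      · exact fun h => h.1
      · intro hh
        refine ⟨hh, fun hvw => ?_⟩
        rcases hh with hh | hh
        · exact hh.1.ne hvw
        · exact hnd _ hh (by simp [hvw])
    have hsub : N1 ⊆ G.neighborSet v := fun w hw => h.1 _ hw
    have hdis : Disjoint (G.neighborSet v \ N1) N2 :=
      Set.disjoint_left.2 fun w hw hw2 => h.2 _ hw2 hw.1
    rw [e, Set.ncard_union_eq hdis, Set.ncard_sdiff hsub, pm_nbr hp.1.1, pm_nbr hp.1.2]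
    have := Set.ncard_le_ncard hsub
    rw [pm_nbr hp.1.1] at this
    omega
  · rfl

lemma move_symm_of {S : Finset (Fin n)} {p : Finset (Sym2 (Fin n)) × Finset (Sym2 (Fin n))}
    (hp : p ∈ matchingPairs S) {G H : SimpleGraph (Fin n)} (hne : G ≠ H)
    (h : move G p.1 p.2 = H) : move H p.2 p.1 = G := by
  simp only [matchingPairs, perfectMatchings, Finset.mem_filter, Finset.mem_product] at hp
  unfold move at h
  split_ifs at h with hc
  swap
  · exact absurd h hne
  have hE : H.edgeSet = (G.edgeSet \ ↑p.1) ∪ ↑p.2 := by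
    rw [← h, SimpleGraph.edgeSet_fromEdgeSet, sdiff_eq_left, Set.disjoint_left]
    intro e he hd
    rcases he with he | he
    · exact G.not_isDiag_of_mem_edgeSet he.1 hd
    · exact hp.1.2.2.1 e he hd
  have hdisj : ∀ e ∈ p.1, e ∉ p.2 := fun e he he' => hc.2 e he' (hc.1 e he)
  unfold move
  rw [if_pos]
  · rw [← SimpleGraph.edgeSet_inj, SimpleGraph.edgeSet_fromEdgeSet, hE]
    have hsd : ∀ e ∈ G.edgeSet, ¬ e ∈ Sym2.diagSet := fun e he hd => G.not_isDiag_of_mem_edgeSet he hd
    ext e
    simp only [Set.mem_diff, Set.mem_union, Finset.mem_coe]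
    constructor
    · rintro ⟨⟨(h1 | h1), h2⟩ | h1, -⟩
      · exact h1.1
      · exact absurd h1 h2
      · exact hc.1 e h1
    · intro h1
      refine ⟨?_, hsd e h1⟩
      by_cases h2 : e ∈ p.1
      · exact Or.inr h2
      · exact Or.inl ⟨Or.inl ⟨h1, h2⟩, fun h3 => hc.2 e h3 h1⟩
  · refine ⟨fun e he => by rw [hE]; exact Or.inr he, fun e he => ?_⟩
    rw [hE]; rintro (⟨-, h2⟩ | h2)
    · exact h2 he
    · exact hdisj e he h2

variable (d : Fin n → ℕ)

/-- The non-lazy part of the chain. -/
noncomputable def jump (G H : Omega d) : ℝ :=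
  (∑ S ∈ (univ : Finset (Fin n)).powersetCard 4,
    (∑ p ∈ matchingPairs S, if move G.1 p.1 p.2 = H.1 then (1 : ℝ) else 0)
      / ((matchingPairs S).card : ℝ)) / (n.choose 4 : ℝ)

lemma switchChain_eq (G H : Omega d) :
    switchChain d G H = (if G = H then (1 / 2 : ℝ) else 0) + (1 / 2) * jump d G H := by
  rw [switchChain, jump, mul_div_assoc]

lemma jump_nonneg (G H : Omega d) : 0 ≤ jump d G H := by
  refine div_nonneg (Finset.sum_nonneg fun S _ => div_nonneg (Finset.sum_nonneg fun p _ => ?_)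
    (Nat.cast_nonneg _)) (Nat.cast_nonneg _)
  split_ifs <;> norm_num

lemma jump_symm (G H : Omega d) : jump d G H = jump d H G := by
  rcases eq_or_ne G H with rfl | hne
  · rfl
  have hne' : G.1 ≠ H.1 := fun h => hne (Subtype.ext h)
  unfold jump
  congr 1
  refine Finset.sum_congr rfl fun S _ => ?_
  congr 1
  refine Finset.sum_nbij' Prod.swap Prod.swap ?_ ?_ ?_ ?_ ?_
  · intro p hp
    simp only [matchingPairs, Finset.mem_coe, Finset.mem_filter, Finset.mem_product] at hp ⊢
    exact ⟨⟨hp.1.2, hp.1.1⟩, fun h => hp.2 h.symm⟩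
  · intro p hp
    simp only [matchingPairs, Finset.mem_coe, Finset.mem_filter, Finset.mem_product] at hp ⊢
    exact ⟨⟨hp.1.2, hp.1.1⟩, fun h => hp.2 h.symm⟩
  · intro p _; simp
  · intro p _; simp
  · intro p hp
    have hp' : (p.2, p.1) ∈ matchingPairs S := by
      simp only [matchingPairs, Finset.mem_filter, Finset.mem_product] at hp ⊢
      exact ⟨⟨hp.1.2, hp.1.1⟩, fun h => hp.2 h.symm⟩
    refine if_congr ⟨fun h => move_symm_of hp hne' h, fun h => ?_⟩ rfl rfl
    exact move_symm_of (p := (p.2, p.1)) hp' hne'.symm h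

lemma matchingPairs_nonempty {S : Finset (Fin n)} (hS : S.card = 4) : (matchingPairs S).Nonempty := by
  obtain ⟨a, b, c, e, hab, hac, hae, hbc, hbe, hce, rfl⟩ := Finset.card_eq_four.1 hS
  refine ⟨({s(a, b), s(c, e)}, {s(a, c), s(b, e)}), ?_⟩
  simp only [matchingPairs, perfectMatchings, Finset.mem_filter, Finset.mem_product, Finset.mem_powerset]
  refine ⟨⟨⟨?_, ?_, ?_⟩, ⟨?_, ?_, ?_⟩⟩, ?_⟩
  · intro x hx; simp at hx; rcases hx with rfl | rfl <;> simp
  · intro x hx; simp at hx; rcases hx with rfl | rfl <;> simp [hab, hce]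
  · intro v hv; simp at hv
    rcases hv with rfl | rfl | rfl | rfl <;>
      simp [Finset.filter_insert, Finset.filter_singleton, *, Ne.symm hab, Ne.symm hac, Ne.symm hae,
        Ne.symm hbc, Ne.symm hbe, Ne.symm hce]
  · intro x hx; simp at hx; rcases hx with rfl | rfl <;> simp
  · intro x hx; simp at hx; rcases hx with rfl | rfl <;> simp [hac, hbe]
  · intro v hv; simp at hv
    rcases hv with rfl | rfl | rfl | rfl <;>
      simp [Finset.filter_insert, Finset.filter_singleton, *, Ne.symm hab, Ne.symm hac, Ne.symm hae,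
        Ne.symm hbc, Ne.symm hbe, Ne.symm hce]
  · intro h
    have := Finset.ext_iff.1 h s(a, b)
    simp [hbc, hab, hae, hac, hbe] at this

lemma jump_sum (hn : 4 ≤ n) (G : Omega d) : ∑ H, jump d G H = 1 := by
  simp only [jump]
  rw [← Finset.sum_div, Finset.sum_comm]
  have : ∀ S ∈ (univ : Finset (Fin n)).powersetCard 4, (∑ H : Omega d,
      (∑ p ∈ matchingPairs S, if move G.1 p.1 p.2 = H.1 then (1 : ℝ) else 0)
        / ((matchingPairs S).card : ℝ)) = 1 := by
    intro S hS
    rw [← Finset.sum_div, Finset.sum_comm]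
    have h1 : ∀ p ∈ matchingPairs S,
        (∑ H : Omega d, if move G.1 p.1 p.2 = H.1 then (1 : ℝ) else 0) = 1 := by
      intro p hp
      let H₀ : Omega d := ⟨move G.1 p.1 p.2, fun v => by rw [move_degree hp, G.2 v]⟩
      rw [Finset.sum_eq_single H₀]
      · simp [H₀]
      · intro H _ hH
        rw [if_neg]; exact fun h => hH (Subtype.ext h.symm)
      · simp
    rw [Finset.sum_congr rfl h1, Finset.sum_const, nsmul_one, div_self]
    have := (matchingPairs_nonempty (Finset.mem_powersetCard.1 hS).2).card_pos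
    exact_mod_cast this.ne'
  rw [Finset.sum_congr rfl this, Finset.sum_const, nsmul_one, Finset.card_powersetCard, Finset.card_univ,
    Fintype.card_fin, div_self]
  exact_mod_cast (Nat.choose_pos hn).ne'

/-- The chain as an operator. -/
noncomputable def op : (Omega d → ℝ) →ₗ[ℝ] (Omega d → ℝ) := Matrix.mulVecLin (switchChain d)

lemma op_apply (f : Omega d → ℝ) (G : Omega d) : op d f G = ∑ H, switchChain d G H * f H := rfl

lemma switchChain_symm (G H : Omega d) : switchChain d G H = switchChain d H G := by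
  rw [switchChain_eq, switchChain_eq, jump_symm]; simp [eq_comm]

lemma op_symm (f g : Omega d → ℝ) : ip (op d f) g = ip f (op d g) := by
  simp only [ip, op_apply, Finset.sum_mul, Finset.mul_sum]
  rw [Finset.sum_comm]
  exact Finset.sum_congr rfl fun G _ => Finset.sum_congr rfl fun H _ => by
    rw [switchChain_symm d G H]; ring

/-- The Dirichlet form of the non-lazy part. -/
noncomputable def form (f : Omega d → ℝ) : ℝ := ∑ G, ∑ H, jump d G H * (f G - f H) ^ 2

lemma op_jump (f : Omega d → ℝ) (G : Omega d) :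
    op d f G = (1 / 2) * f G + (1 / 2) * ∑ H, jump d G H * f H := by
  simp only [op_apply, switchChain_eq, add_mul, Finset.sum_add_distrib, ite_mul, zero_mul,
    Finset.sum_ite_eq, Finset.mem_univ, if_true, Finset.mul_sum, mul_assoc]

lemma ip_op_self (hn : 4 ≤ n) (f : Omega d → ℝ) :
    ip (op d f) f = ip f f - form d f / 4 ∧ 0 ≤ ip (op d f) f := by
  have s1 : ∑ G, ∑ H, jump d G H * f G ^ 2 = ip f f := by
    simp only [← Finset.sum_mul, jump_sum d hn, one_mul]
    simp [ip, sq]
  have s2 : ∑ G, ∑ H, jump d G H * f H ^ 2 = ip f f := by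
    rw [Finset.sum_comm, ← s1]
    exact Finset.sum_congr rfl fun G _ => Finset.sum_congr rfl fun H _ => by rw [jump_symm]
  have c : ip (op d f) f = (1 / 2) * ip f f + (1 / 2) * ∑ G, ∑ H, jump d G H * f H * f G := by
    simp only [ip, op_jump, add_mul, Finset.sum_add_distrib, Finset.mul_sum, Finset.sum_mul, mul_assoc]
  have e1 : form d f = 2 * ip f f - 2 * ∑ G, ∑ H, jump d G H * f H * f G := by
    rw [two_mul (ip f f)]
    nth_rewrite 1 [← s1]; rw [← s2]
    simp only [form, ← Finset.sum_add_distrib, Finset.mul_sum, ← Finset.sum_sub_distrib]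
    exact Finset.sum_congr rfl fun G _ => Finset.sum_congr rfl fun H _ => by ring
  have e2 : ∑ G, ∑ H, jump d G H * (f G + f H) ^ 2
      = 2 * ip f f + 2 * ∑ G, ∑ H, jump d G H * f H * f G := by
    rw [two_mul (ip f f)]
    nth_rewrite 1 [← s1]; rw [← s2]
    simp only [← Finset.sum_add_distrib, Finset.mul_sum]
    exact Finset.sum_congr rfl fun G _ => Finset.sum_congr rfl fun H _ => by ring
  have e3 : 0 ≤ ∑ G, ∑ H, jump d G H * (f G + f H) ^ 2 :=
    Finset.sum_nonneg fun G _ => Finset.sum_nonneg fun H _ => mul_nonneg (jump_nonneg d G H) (sq_nonneg _)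
  constructor <;> nlinarith

lemma sum_op (hn : 4 ≤ n) (f : Omega d → ℝ) : ∑ G, op d f G = ∑ G, f G := by
  simp only [op_apply]
  rw [Finset.sum_comm]
  refine Finset.sum_congr rfl fun H _ => ?_
  simp only [switchChain_symm d _ H, ← Finset.sum_mul, switchChain_eq, Finset.sum_add_distrib,
    Finset.sum_ite_eq, Finset.mem_univ, if_true, ← Finset.mul_sum, jump_sum d hn]
  ring

/-- A Poincaré inequality with constant `1/(4m)` bounds the mixing time. -/
theorem tv_le_of_poincare (hn : 4 ≤ n) (m : ℕ) (hm : 2 ≤ m)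
    (hP : ∀ f : Omega d → ℝ, ∑ G, f G = 0 → 4 * ip f f ≤ (m : ℝ) * form d f)
    (t : ℕ) (ht : (n * n + 2) * m ≤ t) (G : Omega d) : tvDist d t G ≤ 1 / 4 := by
  set q : ℝ := 1 - 1 / (m : ℝ) with hq
  have hmR : (2 : ℝ) ≤ m := by exact_mod_cast hm
  have hq0 : 0 < q := by
    have : 1 / (m : ℝ) ≤ 1 / 2 := one_div_le_one_div_of_le (by norm_num) hmR
    rw [hq]; linarith
  have hq1 : q ≤ 1 := by rw [hq]; simp
  have hB : ∀ f : Omega d → ℝ, ∑ G, f G = 0 → ip (op d f) f ≤ q * ip f f := by
    intro f hf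
    have h := hP f hf
    rw [(ip_op_self d hn f).1, hq]
    have hm0 : (0 : ℝ) < m := by linarith
    field_simp
    nlinarith
  have hC : ∀ f : Omega d → ℝ, ∑ G, f G = 0 → ip (op d f) (op d f) ≤ q ^ 2 * ip f f := by
    intro f hf
    have hg : ∑ G, op d f G = 0 := by rw [sum_op d hn, hf]
    have h0 := (ip_op_self d hn (f - (1 / q) • op d f)).2
    simp only [map_sub, map_smul, ip_sub_left, ip_sub_right, ip_smul_left, ip_smul_right] at h0
    rw [op_symm d (op d f) f] at h0
    have h1 := hB f hf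
    have h2 := hB _ hg
    have h2' : (1/q) * ((1/q) * ip (op d (op d f)) (op d f)) ≤ (1/q) * ip (op d f) (op d f) := by
      refine mul_le_mul_of_nonneg_left ?_ (by positivity)
      rw [one_div, inv_mul_le_iff₀ hq0]; linarith
    have h3 : (1 / q) * ip (op d f) (op d f) ≤ q * ip f f := by linarith
    rw [one_div, inv_mul_le_iff₀ hq0] at h3
    linarith [h3]
  set π : ℝ := 1 / (Fintype.card (Omega d) : ℝ) with hπ
  have hN : (0 : ℝ) < Fintype.card (Omega d) := by
    exact_mod_cast Fintype.card_pos_iff.2 ⟨G⟩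
  let h : ℕ → Omega d → ℝ := fun s H => (switchChain d ^ s) G H - π
  have hsucc : ∀ s, h (s + 1) = op d (h s) := by
    intro s; funext H
    simp only [h, op_apply, pow_succ, Matrix.mul_apply, mul_sub, Finset.sum_sub_distrib]
    congr 1
    · exact Finset.sum_congr rfl fun K _ => by rw [switchChain_symm d H K]; ring
    · rw [← Finset.sum_mul]
      simp [switchChain_eq, Finset.sum_add_distrib, ← Finset.mul_sum, jump_sum d hn H]
      ring
  have hinit : ∑ H, h 0 H = 0 := by
    simp only [h, pow_zero, Matrix.one_apply, Finset.sum_sub_distrib, Finset.sum_ite_eq, Finset.mem_univ,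
      if_true, Finset.sum_const, nsmul_eq_mul, Finset.card_univ, hπ]
    field_simp; ring
  have hind : ∀ s, (∑ H, h s H = 0) ∧ ip (h s) (h s) ≤ (q ^ 2) ^ s := by
    intro s
    induction s with
    | zero =>
      refine ⟨hinit, ?_⟩
      simp only [pow_zero, ip]
      have : ∀ H, h 0 H * h 0 H = (if G = H then 1 - 2 * π else 0) + π * π := by
        intro H; simp only [h, pow_zero, Matrix.one_apply]; split_ifs <;> ring
      simp only [this, Finset.sum_add_distrib, Finset.sum_ite_eq, Finset.mem_univ, if_true,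
        Finset.sum_const, nsmul_eq_mul, Finset.card_univ]
      have : (Fintype.card (Omega d) : ℝ) * π = 1 := by rw [hπ]; field_simp
      have : 0 ≤ π := by rw [hπ]; positivity
      nlinarith
    | succ s ih =>
      rw [hsucc]
      refine ⟨by rw [sum_op d hn]; exact ih.1, (hC _ ih.1).trans ?_⟩
      rw [pow_succ (q ^ 2) s, mul_comm ((q ^ 2) ^ s)]
      exact mul_le_mul_of_nonneg_left ih.2 (sq_nonneg q)
  have hhalf : q ^ m ≤ 1 / 2 := by
    have hm0 : (0 : ℝ) < m := by linarith
    have h1 : q * (1 + 1 / (m : ℝ)) ≤ 1 := by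
      rw [hq]; have : 0 ≤ (1 / (m : ℝ)) ^ 2 := sq_nonneg _; nlinarith
    have h2 : (2 : ℝ) ≤ (1 + 1 / (m : ℝ)) ^ m := by
      have h0 : 0 ≤ 1 / (m : ℝ) := by positivity
      refine le_trans ?_ (one_add_mul_le_pow (by linarith) m)
      field_simp; norm_num
    have h3 : q ^ m * (1 + 1 / (m : ℝ)) ^ m ≤ 1 := by
      rw [← mul_pow]; exact pow_le_one₀ (by positivity) h1
    nlinarith [pow_nonneg hq0.le m]
  have hcard : (Fintype.card (Omega d) : ℝ) ≤ 2 ^ (n * n) := by
    have : Fintype.card (Omega d) ≤ Fintype.card (Fin n → Fin n → Bool) := by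
      refine Fintype.card_le_of_injective (fun H u v => decide (H.1.Adj u v)) fun A B hAB => ?_
      ext u v
      simpa using congrFun (congrFun hAB u) v
    simp only [Fintype.card_fun, Fintype.card_fin, Fintype.card_bool, ← pow_mul] at this
    exact_mod_cast this
  have hpow : q ^ t ≤ (1 / 2 : ℝ) ^ (n * n + 2) := by
    calc q ^ t ≤ q ^ (m * (n * n + 2)) := pow_le_pow_of_le_one hq0.le hq1 (by rw [mul_comm]; exact ht)
      _ = (q ^ m) ^ (n * n + 2) := pow_mul q m _
      _ ≤ _ := pow_le_pow_left₀ (by positivity) hhalf _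
  have hCS : (∑ H, |h t H|) ^ 2 ≤ (Fintype.card (Omega d) : ℝ) * ip (h t) (h t) := by
    refine (sq_sum_le_card_mul_sum_sq).trans (le_of_eq ?_)
    simp [ip, Finset.card_univ, sq]
  have hfin : (∑ H, |h t H|) ^ 2 ≤ (1 / 2 : ℝ) ^ 2 := by
    refine hCS.trans ?_
    calc (Fintype.card (Omega d) : ℝ) * ip (h t) (h t)
        ≤ 2 ^ (n * n) * (q ^ 2) ^ t := mul_le_mul hcard (hind t).2 (ip_self_nonneg _) (by positivity)
      _ = 2 ^ (n * n) * (q ^ t * q ^ t) := by rw [← pow_mul, two_mul, pow_add]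
      _ ≤ 2 ^ (n * n) * ((1 / 2) ^ (n * n + 2) * 1) := by
          refine mul_le_mul_of_nonneg_left (mul_le_mul hpow (pow_le_one₀ hq0.le hq1) (by positivity) (by positivity))
            (by positivity)
      _ = _ := by rw [mul_one, pow_add, ← mul_assoc, ← mul_pow]; norm_num
  have := (pow_le_pow_iff_left₀ (Finset.sum_nonneg fun H _ => abs_nonneg (h t H)) (by norm_num) two_ne_zero).1 hfin
  show (1 / 2 : ℝ) * ∑ H, |h t H| ≤ 1 / 4
  linarith

end Vale.Agent.P335
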