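import Vale.Agent.P335.Avg

/-! The three-row lemma: for three colour classes with fixed signed sizes, the three
conditional expectations have sum at most two, away from their common fixed functions. -/

namespace Vale.Agent.P335

open Finset

namespace Colour

variable {U : Type*} [Fintype U] [DecidableEq U]

/-- The sign of a site. -/
def sgn (σ : U → Bool) (u : U) : ℤ := if σ u then 1 else -1

/-- Colourings of the sites with prescribed signed class sizes. -/
abbrev St (σ : U → Bool) (δ : Fin 3 → ℤ) :=
  {κ : U → Fin 3 // ∀ i, (∑ u, if κ u = i then sgn σ u else 0) = δ i}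

variable {σ : U → Bool} {δ : Fin 3 → ℤ}

/-- The class of colour `c`. -/
def key (c : Fin 3) (x : St σ δ) : U → Bool := fun u => decide (x.1 u = c)

/-- Negative sites of colour `c`. -/
def bset (c : Fin 3) (x : St σ δ) : Finset U := univ.filter fun u => x.1 u = c ∧ σ u = false

/-- Positive sites of colour `c`. -/
def aset (c : Fin 3) (x : St σ δ) : Finset U := univ.filter fun u => x.1 u = c ∧ σ u = true

/-- Number of negative sites of colour `c`. -/
def bn (c : Fin 3) (x : St σ δ) : ℕ := (bset c x).card

lemma card_eq (c : Fin 3) (x : St σ δ) : ((aset c x).card : ℤ) - (bn c x : ℤ) = δ c := by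
  rw [← x.2 c, bn, aset, bset, Finset.card_filter, Finset.card_filter]
  push_cast
  rw [← Finset.sum_sub_distrib]
  refine Finset.sum_congr rfl fun u _ => ?_
  by_cases h : x.1 u = c <;> cases hs : σ u <;> simp [h, hs, sgn]

/-- Exchange the colours of two sites of the same sign. -/
def swapSt (u v : U) (h : σ u = σ v) (x : St σ δ) : St σ δ :=
  ⟨fun w => x.1 (Equiv.swap u v w), fun i => by
    rw [← x.2 i]
    refine Fintype.sum_equiv (Equiv.swap u v) _ _ fun w => ?_
    have : sgn σ (Equiv.swap u v w) = sgn σ w := by
      rcases eq_or_ne w u with rfl | hu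
      · simp [sgn, h]
      rcases eq_or_ne w v with rfl | hv
      · simp [sgn, h]
      rw [Equiv.swap_apply_of_ne_of_ne hu hv]
    rw [this]⟩

@[simp] lemma swapSt_val (u v : U) (h : σ u = σ v) (x : St σ δ) (w : U) :
    (swapSt u v h x).1 w = x.1 (Equiv.swap u v w) := rfl

lemma swapSt_swapSt (u v : U) (h : σ u = σ v) (x : St σ δ) : swapSt u v h (swapSt u v h x) = x := by
  ext w; simp

lemma key_swapSt_of_eq (u v : U) (h : σ u = σ v) (c : Fin 3) (x : St σ δ)
    (hc : (x.1 u = c) ↔ (x.1 v = c)) : key c (swapSt u v h x) = key c x := by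
  funext w
  show decide _ = decide _
  rw [decide_eq_decide, swapSt_val]
  rcases eq_or_ne w u with rfl | hu
  · simpa using hc.symm
  rcases eq_or_ne w v with rfl | hv
  · simpa using hc
  rw [Equiv.swap_apply_of_ne_of_ne hu hv]

lemma key_swapSt_congr (u v : U) (h : σ u = σ v) (c : Fin 3) {x y : St σ δ}
    (hc : key c y = key c x) : key c (swapSt u v h y) = key c (swapSt u v h x) := by
  funext w
  exact congrFun hc (Equiv.swap u v w)

lemma key_swapSt_iff (u v : U) (h : σ u = σ v) (c : Fin 3) {x y : St σ δ} :
    key c y = key c (swapSt u v h x) ↔ key c (swapSt u v h y) = key c x := by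
  constructor <;> intro hy
  · simpa [swapSt_swapSt] using key_swapSt_congr u v h c hy
  · simpa [swapSt_swapSt] using key_swapSt_congr u v h c hy

lemma avg_swapSt (u v : U) (h : σ u = σ v) (c : Fin 3) (g : St σ δ → ℝ) (x : St σ δ) :
    avg (key c) g (swapSt u v h x) = avg (key c) (fun y => g (swapSt u v h y)) x := by
  have hsum : ∀ F : St σ δ → ℝ, ∑ y ∈ fib (key c) (swapSt u v h x), F y
      = ∑ y ∈ fib (key c) x, F (swapSt u v h y) := by
    intro F
    refine Finset.sum_nbij' (swapSt u v h) (swapSt u v h) ?_ ?_ ?_ ?_ ?_
    · intro y hy; exact mem_fib.2 ((key_swapSt_iff u v h c).1 (mem_fib.1 hy))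
    · intro y hy; exact mem_fib.2 (key_swapSt_congr u v h c (mem_fib.1 hy))
    · intro y _; exact swapSt_swapSt u v h y
    · intro y _; exact swapSt_swapSt u v h y
    · intro y _; rw [swapSt_swapSt]
  have hcard := hsum (fun _ => (1 : ℝ))
  simp only [Finset.sum_const, nsmul_eq_mul, mul_one] at hcard
  rw [avg_apply, avg_apply, hsum, hcard]

lemma choose_cross {n m : ℕ} (hm : m ≤ n) {b : ℕ} : ∀ {a : ℕ}, b ≤ a →
    n.choose b * m.choose a ≤ n.choose a * m.choose b := by
  intro a hab
  induction a, hab using Nat.le_induction with
  | base => rfl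
  | succ a _ ih =>
    refine Nat.le_of_mul_le_mul_right ?_ (Nat.succ_pos a)
    rw [Nat.succ_eq_add_one, mul_assoc, Nat.choose_succ_right_eq, mul_right_comm (n.choose (a + 1)),
      Nat.choose_succ_right_eq]
    calc n.choose b * (m.choose a * (m - a)) = n.choose b * m.choose a * (m - a) := by ring
      _ ≤ n.choose a * m.choose b * (n - a) := Nat.mul_le_mul ih (by omega)
      _ = _ := by ring

/-- The states with a given class of colour `i` and a given number of negative sites of colour `j`. -/
def cls (i j : Fin 3) (x : St σ δ) (a : ℕ) : Finset (St σ δ) :=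
  (fib (key i) x).filter fun y => bn j y = a

/-- The sites outside the class `i` with sign `s`. -/
def outs (i : Fin 3) (x : St σ δ) (s : Bool) : Finset U :=
  univ.filter fun u => ¬ x.1 u = i ∧ σ u = s

lemma fin3_third {i j : Fin 3} (hij : j ≠ i) :
    ∃ k : Fin 3, k ≠ i ∧ k ≠ j ∧ ∀ l, l = i ∨ l = j ∨ l = k := by
  revert i j; decide

lemma sum_delta (x : St σ δ) : ∑ i, δ i = ∑ u, sgn σ u := by
  rw [Finset.sum_congr rfl (fun i _ => (x.2 i).symm), Finset.sum_comm]
  exact Finset.sum_congr rfl fun u _ => by simp

lemma card_cls (i j : Fin 3) (hij : j ≠ i) (x : St σ δ) (a : ℕ) :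
    (cls i j x a).card = if 0 ≤ δ j + a then
      (outs i x false).card.choose a * (outs i x true).card.choose (δ j + a).toNat else 0 := by
  obtain ⟨k, hki, hkj, hall⟩ := fin3_third hij
  have hsub : ∀ y : St σ δ, key i y = key i x → ∀ u, y.1 u = j → ¬ x.1 u = i := by
    intro y hy u hu hx
    have h := congrFun hy u
    simp only [key, decide_eq_decide] at h
    exact hij (hu.symm.trans (h.2 hx))
  split_ifs with h0
  · rw [← Finset.card_powersetCard, ← Finset.card_powersetCard, ← Finset.card_product]
    refine Finset.card_bij (fun y _ => (bset j y, aset j y)) ?_ ?_ ?_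
    · intro y hy
      simp only [cls, Finset.mem_filter, mem_fib] at hy
      have hc := card_eq j y
      simp only [Finset.mem_product, Finset.mem_powersetCard]
      refine ⟨⟨fun u hu => ?_, hy.2⟩, fun u hu => ?_, ?_⟩
      · simp only [bset, outs, Finset.mem_filter, Finset.mem_univ, true_and] at hu ⊢
        exact ⟨hsub y hy.1 u hu.1, hu.2⟩
      · simp only [aset, outs, Finset.mem_filter, Finset.mem_univ, true_and] at hu ⊢
        exact ⟨hsub y hy.1 u hu.1, hu.2⟩
      · rw [← hy.2]; omega
    · intro y hy z hz he
      simp only [cls, Finset.mem_filter, mem_fib] at hy hz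
      simp only [Prod.mk.injEq] at he
      apply Subtype.ext; funext u
      have hi := congrFun (hy.1.trans hz.1.symm) u
      simp only [key, decide_eq_decide] at hi
      have hj : y.1 u = j ↔ z.1 u = j := by
        cases hs : σ u
        · have := Finset.ext_iff.1 he.1 u
          simpa [bset, hs] using this
        · have := Finset.ext_iff.1 he.2 u
          simpa [aset, hs] using this
      rcases hall (y.1 u) with h | h | h
      · rw [h, hi.1 h]
      · rw [h, hj.1 h]
      · rcases hall (z.1 u) with h' | h' | h'
        · rw [h', hi.2 h']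
        · rw [h', hj.2 h']
        · rw [h, h']
    · rintro ⟨B, A⟩ hAB
      simp only [Finset.mem_product, Finset.mem_powersetCard] at hAB
      obtain ⟨⟨hB, hBc⟩, hA, hAc⟩ := hAB
      let κ : U → Fin 3 := fun u => if x.1 u = i then i else if u ∈ B ∪ A then j else k
      have hBm : ∀ u ∈ B, ¬ x.1 u = i ∧ σ u = false := fun u hu => by simpa [outs] using hB hu
      have hAm : ∀ u ∈ A, ¬ x.1 u = i ∧ σ u = true := fun u hu => by simpa [outs] using hA hu
      have hκi : ∀ u, κ u = i ↔ x.1 u = i := by
        intro u; simp only [κ]; split_ifs with h1 h2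
        · simp [h1]
        · simp [h1, hij]
        · simp [h1, hki]
      have hκj : ∀ u, κ u = j ↔ u ∈ B ∪ A := by
        intro u; simp only [κ]; split_ifs with h1 h2
        · constructor
          · intro h; exact absurd h hij.symm
          · intro h
            rcases Finset.mem_union.1 h with h | h
            · exact absurd h1 (hBm u h).1
            · exact absurd h1 (hAm u h).1
        · simp [h2]
        · simp [h2, hkj]
      have si : (∑ u, if κ u = i then sgn σ u else 0) = δ i := by simp only [hκi]; exact x.2 i
      have sj : (∑ u, if κ u = j then sgn σ u else 0) = δ j := by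
        simp only [hκj, Finset.sum_ite_mem, Finset.univ_inter]
        rw [Finset.sum_union]
        · rw [Finset.sum_congr rfl (fun u hu => show sgn σ u = (-1 : ℤ) by simp [sgn, (hBm u hu).2]),
            Finset.sum_congr rfl (fun u hu => show sgn σ u = (1 : ℤ) by simp [sgn, (hAm u hu).2])]
          simp [hBc, hAc, max_eq_left h0]
        · rw [Finset.disjoint_left]; intro u hu hu'
          have := (hBm u hu).2; rw [(hAm u hu').2] at this; exact Bool.noConfusion this
      have hκ : ∀ l, (∑ u, if κ u = l then sgn σ u else 0) = δ l := by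
        intro l
        rcases hall l with rfl | rfl | rfl
        · exact si
        · exact sj
        · have e : (Finset.univ : Finset (Fin 3)) = {i, j, l} := by
            ext m; simpa using hall m
          have t1 : ∑ m, (∑ u, if κ u = m then sgn σ u else 0) = ∑ m, δ m := by
            rw [sum_delta x, Finset.sum_comm]; exact Finset.sum_congr rfl fun u _ => by simp
          rw [e] at t1
          simp only [Finset.sum_insert, Finset.mem_insert, Finset.mem_singleton, Finset.sum_singleton,
            hij.symm, hki.symm, hkj.symm, or_self, not_false_eq_true, si, sj] at t1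
          linarith
      refine ⟨⟨κ, hκ⟩, ?_, ?_⟩
      · simp only [cls, Finset.mem_filter, mem_fib]
        refine ⟨funext fun u => by simp [key, hκi], ?_⟩
        rw [bn, ← hBc]; congr 1; ext u
        simp only [bset, Finset.mem_filter, Finset.mem_univ, true_and, hκj, Finset.mem_union]
        exact ⟨fun h => h.1.elim id fun ha => by simp [(hAm u ha).2] at h,
          fun h => ⟨Or.inl h, (hBm u h).2⟩⟩
      · ext u
        · simp only [bset, Finset.mem_filter, Finset.mem_univ, true_and, hκj, Finset.mem_union]
          exact ⟨fun h => h.1.elim id fun ha => by simp [(hAm u ha).2] at h,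
            fun h => ⟨Or.inl h, (hBm u h).2⟩⟩
        · simp only [aset, Finset.mem_filter, Finset.mem_univ, true_and, hκj, Finset.mem_union]
          exact ⟨fun h => h.1.elim (fun hb => by simp [(hBm u hb).2] at h) id,
            fun h => ⟨Or.inr h, (hAm u h).2⟩⟩
  · rw [Finset.card_eq_zero, cls, Finset.filter_eq_empty_iff]
    intro y _ hb
    have := card_eq j y
    omega

lemma bn_swapSt_invariant (i : Fin 3) (g : St σ δ → ℝ)
    (hkey : ∀ x y, key i x = key i y → g x = g y)
    (hsw : ∀ (u v : U) (h : σ u = σ v) x, g (swapSt u v h x) = g x) :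
    ∀ x y, bn i x = bn i y → g x = g y := by
  suffices H : ∀ n x y, ((univ : Finset U).filter fun u => x.1 u = i ∧ ¬ y.1 u = i).card = n →
      bn i x = bn i y → g x = g y by exact fun x y h => H _ x y rfl h
  intro n
  induction n using Nat.strong_induction_on with
  | _ n ih =>
    intro x y hn hb
    by_cases h0 : ∃ u, x.1 u = i ∧ ¬ y.1 u = i
    · obtain ⟨u, hxu, hyu⟩ := h0
      have hA : (aset i x).card = (aset i y).card := by
        have := card_eq i x; have := card_eq i y; omega
      have hset : ((univ : Finset U).filter fun w => x.1 w = i ∧ σ w = σ u).card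
          = ((univ : Finset U).filter fun w => y.1 w = i ∧ σ w = σ u).card := by
        cases hs : σ u
        · simpa [bn, bset] using hb
        · simpa [aset] using hA
      obtain ⟨v, hv, hv'⟩ : ∃ v, (y.1 v = i ∧ σ v = σ u) ∧ ¬ x.1 v = i := by
        by_contra hne
        push Not at hne
        have hss : ((univ : Finset U).filter fun w => y.1 w = i ∧ σ w = σ u) ⊆
            (univ : Finset U).filter fun w => x.1 w = i ∧ σ w = σ u := by
          intro w hw; simp only [Finset.mem_filter, Finset.mem_univ, true_and] at hw ⊢
          exact ⟨hne w hw, hw.2⟩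
        have := Finset.eq_of_subset_of_card_le hss hset.le
        have hu : u ∈ ((univ : Finset U).filter fun w => y.1 w = i ∧ σ w = σ u) := by
          rw [this]; simp [hxu]
        simp [hyu] at hu
      rw [← hsw u v hv.2.symm x]
      refine ih _ ?_ _ _ rfl ?_
      · rw [← hn]
        refine Finset.card_lt_card ((Finset.ssubset_iff_of_subset ?_).2 ⟨u, by simp [hxu, hyu], ?_⟩)
        · intro w hw
          rw [Finset.mem_filter] at hw ⊢
          obtain ⟨_, hw⟩ := hw
          rw [swapSt_val] at hw
          refine ⟨Finset.mem_univ _, ?_⟩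
          rcases eq_or_ne w v with rfl | hwv
          · exact absurd hv.1 hw.2
          rcases eq_or_ne w u with rfl | hwu
          · exact ⟨hxu, hyu⟩
          rw [Equiv.swap_apply_of_ne_of_ne hwu hwv] at hw; exact hw
        · rw [Finset.mem_filter]
          rintro ⟨_, h1, _⟩
          rw [swapSt_val, Equiv.swap_apply_left] at h1
          exact hv' h1
      · rw [← hb]
        refine Finset.card_equiv (Equiv.swap u v) fun w => ?_
        have : σ (Equiv.swap u v w) = σ w := by
          rcases eq_or_ne w u with rfl | hu
          · simp [hv.2]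
          rcases eq_or_ne w v with rfl | hw
          · simp [hv.2]
          rw [Equiv.swap_apply_of_ne_of_ne hu hw]
        rw [bset, bset, Finset.mem_filter, Finset.mem_filter, swapSt_val, this]
        simp
    · push Not at h0
      have hsub : (univ.filter fun u => x.1 u = i) ⊆ (univ : Finset U).filter fun u => y.1 u = i := by
        intro w; simp only [Finset.mem_filter, Finset.mem_univ, true_and]; exact h0 w
      have hc : ∀ z : St σ δ, ((univ : Finset U).filter fun u => z.1 u = i).card
          = (aset i z).card + bn i z := by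
        intro z
        rw [bn, ← Finset.card_union_of_disjoint]
        · congr 1; ext w; cases hs : σ w <;> simp [aset, bset, hs]
        · rw [Finset.disjoint_left]; intro w h1 h2; simp [aset, bset] at h1 h2; simp [h1.2] at h2
      have he := Finset.eq_of_subset_of_card_le hsub
        (by have := card_eq i x; have := card_eq i y; rw [hc, hc]; omega)
      refine hkey x y (funext fun w => ?_)
      have := Finset.ext_iff.1 he w
      simpa [key] using this

/-- Raising the class `i` lowers the class `j` stochastically. -/
lemma avg_mono (i j : Fin 3) (hij : j ≠ i) (x y : St σ δ) (hle : bn i x ≤ bn i y)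
    (ψ : St σ δ → ℝ) (hψ : ∀ z w, bn j z ≤ bn j w → ψ z ≤ ψ w) :
    avg (key i) ψ y ≤ avg (key i) ψ x := by
  rw [avg_apply, avg_apply, div_le_div_iff₀ (fib_card_pos _ _) (fib_card_pos _ _)]
  set nx : ℕ → ℕ := fun a => (cls i j x a).card with hnx
  set ny : ℕ → ℕ := fun a => (cls i j y a).card with hny
  have houts : ∀ s, (outs i y s).card ≤ (outs i x s).card := by
    intro s
    have hb : ∀ z : St σ δ, (outs i z false).card + bn i z = ((univ : Finset U).filter fun u => σ u = false).card := by
      intro z
      rw [bn, ← Finset.card_union_of_disjoint]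
      · congr 1; ext w; by_cases h : z.1 w = i <;> cases hs : σ w <;> simp [outs, bset, h, hs]
      · rw [Finset.disjoint_left]; intro w h1 h2; simp [outs, bset] at h1 h2; exact h1.1 h2.1
    have ha : ∀ z : St σ δ, (outs i z true).card + (aset i z).card = ((univ : Finset U).filter fun u => σ u = true).card := by
      intro z
      rw [← Finset.card_union_of_disjoint]
      · congr 1; ext w; by_cases h : z.1 w = i <;> cases hs : σ w <;> simp [outs, aset, h, hs]
      · rw [Finset.disjoint_left]; intro w h1 h2; simp [outs, aset] at h1 h2; exact h1.1 h2.1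
    cases s
    · have := hb x; have := hb y; omega
    · have := ha x; have := ha y; have := card_eq i x; have := card_eq i y; omega
  have cross : ∀ a a', a' ≤ a → nx a' * ny a ≤ nx a * ny a' := by
    intro a a' h
    simp only [hnx, hny, card_cls i j hij]
    by_cases h' : 0 ≤ δ j + (a' : ℤ)
    · have h'' : 0 ≤ δ j + (a : ℤ) := by omega
      simp only [h', h'', if_true]
      calc _ = ((outs i x false).card.choose a' * (outs i y false).card.choose a) *
            ((outs i x true).card.choose (δ j + a').toNat * (outs i y true).card.choose (δ j + a).toNat) := by ring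
        _ ≤ ((outs i x false).card.choose a * (outs i y false).card.choose a') *
            ((outs i x true).card.choose (δ j + a).toNat * (outs i y true).card.choose (δ j + a').toNat) :=
          Nat.mul_le_mul (choose_cross (houts false) h) (choose_cross (houts true) (by omega))
        _ = _ := by ring
    · simp [h']
  have key2 : 0 ≤ ∑ z ∈ fib (key i) x, ∑ w ∈ fib (key i) y, (ψ z - ψ w) := by
    classical
    -- group by the numbers of negative sites of colour `j`
    have hval : ∀ z w, bn j z = bn j w → ψ z = ψ w :=
      fun z w h => le_antisymm (hψ z w h.le) (hψ w z h.ge)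
    let φ : ℕ → ℝ := fun a => if h : ∃ z : St σ δ, bn j z = a then ψ h.choose else 0
    have hφ : ∀ z, ψ z = φ (bn j z) := fun z => by
      have h : ∃ z', bn j z' = bn j z := ⟨z, rfl⟩
      simp only [φ, dif_pos h]; exact hval _ _ h.choose_spec.symm
    let S : Finset ℕ := univ.image (bn (σ := σ) (δ := δ) j)
    have hmap : ∀ (p : St σ δ) (F : ℕ → ℝ), ∑ z ∈ fib (key i) p, F (bn j z)
        = ∑ a ∈ S, ((cls i j p a).card : ℝ) * F a := by
      intro p F
      rw [← Finset.sum_fiberwise_of_maps_to (g := bn j) (t := S) (fun z _ => by simp [S])]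
      refine Finset.sum_congr rfl fun a _ => ?_
      rw [Finset.sum_congr rfl (fun z hz => by rw [(Finset.mem_filter.1 hz).2]), Finset.sum_const]
      simp [cls]
    set T := ∑ a ∈ S, ∑ b ∈ S, ((nx a : ℝ) * (ny b : ℝ)) * (φ a - φ b) with hT
    have e1 : (∑ z ∈ fib (key i) x, ∑ w ∈ fib (key i) y, (ψ z - ψ w)) = T := by
      simp only [hφ]
      rw [hmap x (fun a => ∑ w ∈ fib (key i) y, (φ a - φ (bn j w)))]
      refine Finset.sum_congr rfl fun a _ => ?_
      rw [hmap y (fun b => φ a - φ b), Finset.mul_sum]
      exact Finset.sum_congr rfl fun b _ => by simp [hnx, hny]; ring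
    rw [e1]
    have : 0 ≤ T + T := by
      nth_rewrite 2 [hT]
      rw [Finset.sum_comm, hT, ← Finset.sum_add_distrib]
      refine Finset.sum_nonneg fun a ha => ?_
      rw [← Finset.sum_add_distrib]
      refine Finset.sum_nonneg fun b hb => ?_
      simp only [S, Finset.mem_image, Finset.mem_univ, true_and] at ha hb
      obtain ⟨z, rfl⟩ := ha
      obtain ⟨w, rfl⟩ := hb
      rw [← hφ, ← hφ]
      rcases le_total (bn j z) (bn j w) with h | h
      · have h1 : (nx (bn j z) : ℝ) * ny (bn j w) ≤ nx (bn j w) * ny (bn j z) := by exact_mod_cast cross _ _ h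
        have h2 := hψ z w h
        nlinarith
      · have h1 : (nx (bn j w) : ℝ) * ny (bn j z) ≤ nx (bn j z) * ny (bn j w) := by exact_mod_cast cross _ _ h
        have h2 := hψ w z h
        nlinarith
    linarith
  simp only [Finset.sum_sub_distrib, Finset.sum_const, nsmul_eq_mul, ← Finset.mul_sum] at key2
  linarith

lemma sum_bn (i : Fin 3) (x : St σ δ) :
    ∑ j ∈ univ.erase i, (bn j x : ℝ) = (((univ : Finset U).filter fun u => σ u = false).card : ℝ) - bn i x := by
  have : ∑ j, bn j x = ((univ : Finset U).filter fun u => σ u = false).card := by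
    rw [Finset.card_eq_sum_card_fiberwise (f := x.1) (t := univ) (fun _ _ => by simp)]
    refine Finset.sum_congr rfl fun j _ => ?_
    rw [bn, bset, Finset.filter_filter]; congr 1; ext u; simp [and_comm]
  have e : ∑ j ∈ univ.erase i, bn j x + bn i x = ((univ : Finset U).filter fun u => σ u = false).card := by
    rw [Finset.sum_erase_add _ _ (Finset.mem_univ i), this]
  rw [eq_sub_iff_add_eq]; exact_mod_cast e

/-- The sum of the three conditional expectations. -/
noncomputable def M : (St σ δ → ℝ) →ₗ[ℝ] (St σ δ → ℝ) := ∑ c : Fin 3, avg (key (σ := σ) (δ := δ) c)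

theorem eigen_le_two (f : St σ δ → ℝ) (μ : ℝ) (hf : f ≠ 0) (hM : M f = μ • f) : μ ≤ 2 ∨ μ = 3 := by
  by_contra hcon
  push Not at hcon
  obtain ⟨hμ, hμ3⟩ := hcon
  obtain ⟨x₀, hx₀⟩ : ∃ x, f x ≠ 0 := by
    by_contra h; push Not at h; exact hf (funext h)
  set g : Fin 3 → St σ δ → ℝ := fun i => avg (key i) f with hg
  have hsum : ∀ z, ∑ j, g j z = μ * f z := by
    intro z
    have := congrFun hM z
    simpa [M, hg] using this
  have hfix : ∀ i, avg (key i) (g i) = g i := fun i => avg_idem _ _
  have hrec : ∀ i x, (μ - 1) * g i x = ∑ j ∈ univ.erase i, avg (key i) (g j) x := by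
    intro i x
    have h1 : avg (key i) (∑ j, g j) x = μ * g i x := by
      have : (∑ j, g j) = μ • f := funext fun z => by simp [hsum]
      rw [this, map_smul]; simp [hg]
    rw [map_sum, Finset.sum_apply, ← Finset.sum_erase_add _ _ (Finset.mem_univ i), hfix] at h1
    linarith
  have hkey : ∀ i x y, key i x = key i y → g i x = g i y := fun i x y h => avg_congr f h
  -- first seminorm: exchanges of two sites of the same sign
  have hswap : ∀ i (u v : U) (h : σ u = σ v) x, g i (swapSt u v h x) = g i x := by
    classical
    let S : Finset ℝ := insert 0 ((univ : Finset (Fin 3 × St σ δ × {p : U × U // σ p.1 = σ p.2})).image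
      fun t => |g t.1 (swapSt t.2.2.1.1 t.2.2.1.2 t.2.2.2 t.2.1) - g t.1 t.2.1|)
    have hne : S.Nonempty := Finset.insert_nonempty _ _
    set L := S.max' hne with hL
    have hLb : ∀ i u v (h : σ u = σ v) x, |g i (swapSt u v h x) - g i x| ≤ L := by
      intro i u v h x
      refine Finset.le_max' _ _ (Finset.mem_insert_of_mem ?_)
      exact Finset.mem_image.2 ⟨(i, x, ⟨(u, v), h⟩), Finset.mem_univ _, rfl⟩
    have hL0 : 0 ≤ L := Finset.le_max' _ _ (Finset.mem_insert_self _ _)
    have hstep : ∀ i u v (h : σ u = σ v) x, (μ - 1) * |g i (swapSt u v h x) - g i x| ≤ L := by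
      intro i u v h x
      by_cases hc : (x.1 u = i) ↔ (x.1 v = i)
      · rw [hkey i _ _ (key_swapSt_of_eq u v h i x hc)]; simpa using hL0
      rw [← abs_of_nonneg (by linarith : (0:ℝ) ≤ μ - 1), ← abs_mul, mul_sub, hrec, hrec,
        ← Finset.sum_sub_distrib]
      simp only [avg_swapSt]
      rw [Finset.sum_congr rfl (fun j _ => show
        avg (key i) (fun y => g j (swapSt u v h y)) x - avg (key i) (g j) x
          = avg (key i) (fun y => g j (swapSt u v h y) - g j y) x by
        rw [← Pi.sub_apply, ← map_sub]; rfl)]
      simp only [avg_apply]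
      rw [← Finset.sum_div, Finset.sum_comm, abs_div, abs_of_pos (fib_card_pos _ _),
        div_le_iff₀ (fib_card_pos _ _)]
      refine (Finset.abs_sum_le_sum_abs _ _).trans ?_
      rw [mul_comm, ← nsmul_eq_mul]
      refine Finset.sum_le_card_nsmul _ _ _ fun y hy => ?_
      have hyk := congrFun (mem_fib.1 hy)
      have eu := hyk u; have ev := hyk v
      simp only [key, decide_eq_decide] at eu ev
      obtain ⟨j0, hj0⟩ : ∃ j0, ∀ j ∈ univ.erase i, j ≠ j0 → ((y.1 u = j) ↔ (y.1 v = j)) := by
        by_cases hu : y.1 u = i
        · refine ⟨y.1 v, fun j hj hne => ?_⟩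
          have := Finset.ne_of_mem_erase hj
          constructor
          · intro e; exact absurd (e.symm.trans hu) this
          · intro e; exact absurd e.symm hne
        · have hv : y.1 v = i := by
            by_contra hv; exact hc ⟨fun e => absurd (eu.2 e) hu, fun e => absurd (ev.2 e) hv⟩
          refine ⟨y.1 u, fun j hj hne => ?_⟩
          have := Finset.ne_of_mem_erase hj
          constructor
          · intro e; exact absurd e.symm hne
          · intro e; exact absurd (e.symm.trans hv) this
      rw [Finset.sum_eq_single j0]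
      · exact hLb j0 u v h y
      · intro j hj hne
        rw [hkey j _ _ (key_swapSt_of_eq u v h j y (hj0 j hj hne)), sub_self]
      · intro hj
        exfalso
        have hall : ∀ j ∈ univ.erase i, (y.1 u = j) ↔ (y.1 v = j) :=
          fun j hj' => hj0 j hj' (fun e => hj (e ▸ hj'))
        refine hc ⟨fun e => ?_, fun e => ?_⟩
        · by_contra hv
          have hyv : y.1 v ≠ i := fun e' => hv (ev.1 e')
          exact hyv (((hall (y.1 v) (by simp [hyv])).2 rfl).symm.trans (eu.2 e))
        · by_contra hu
          have hyu : y.1 u ≠ i := fun e' => hu (eu.1 e')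
          exact hyu (((hall (y.1 u) (by simp [hyu])).1 rfl).symm.trans (ev.2 e))
    have : L = 0 := by
      have hm := Finset.max'_mem S hne
      rcases Finset.mem_insert.1 hm with h | h
      · exact h
      · obtain ⟨⟨i, x, ⟨⟨u, v⟩, h'⟩⟩, _, he⟩ := Finset.mem_image.1 h
        have := hstep i u v h' x
        simp only at he
        rw [he, ← hL] at this
        nlinarith
    intro i u v h x
    have := hLb i u v h x
    rw [‹L = 0›] at this
    exact sub_eq_zero.1 (abs_nonpos_iff.1 this)
  have hb : ∀ i x y, bn i x = bn i y → g i x = g i y :=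
    fun i => bn_swapSt_invariant i (g i) (hkey i) (hswap i)
  -- second seminorm: the number of negative sites
  have hconst : ∀ i x y, g i x = g i y := by
    classical
    let S : Finset ℝ := insert 0 ((univ : Finset (Fin 3 × St σ δ × St σ δ)).image
      fun t => |g t.1 t.2.1 - g t.1 t.2.2| / |(bn t.1 t.2.1 : ℝ) - bn t.1 t.2.2|)
    have hne : S.Nonempty := Finset.insert_nonempty _ _
    set L := S.max' hne with hL
    have hL0 : 0 ≤ L := Finset.le_max' _ _ (Finset.mem_insert_self _ _)
    have hLb : ∀ i x y, |g i x - g i y| ≤ L * |(bn i x : ℝ) - bn i y| := by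
      intro i x y
      rcases eq_or_ne (bn i x) (bn i y) with h | h
      · rw [hb i x y h]; simp [h]
      · have hp : 0 < |(bn i x : ℝ) - bn i y| := abs_pos.2 (sub_ne_zero.2 (by exact_mod_cast h))
        rw [← div_le_iff₀ hp]
        refine Finset.le_max' _ _ (Finset.mem_insert_of_mem ?_)
        exact Finset.mem_image.2 ⟨(i, x, y), Finset.mem_univ _, rfl⟩
    have hstep : ∀ i x y, bn i x ≤ bn i y →
        (μ - 1) * |g i x - g i y| ≤ L * ((bn i y : ℝ) - bn i x) := by
      intro i x y hle
      rw [← abs_of_nonneg (by linarith : (0:ℝ) ≤ μ - 1), ← abs_mul, mul_sub, hrec, hrec,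
        ← Finset.sum_sub_distrib]
      refine (Finset.abs_sum_le_sum_abs _ _).trans ?_
      set B : Fin 3 → St σ δ → ℝ := fun j z => (bn j z : ℝ) with hB
      have hj : ∀ j ∈ univ.erase i, |avg (key i) (g j) x - avg (key i) (g j) y|
          ≤ L * (avg (key i) (B j) x - avg (key i) (B j) y) := by
        intro j hj
        have hji := Finset.ne_of_mem_erase hj
        have mono : ∀ s : ℝ, (s = 1 ∨ s = -1) → avg (key i) (L • B j + s • g j) y
            ≤ avg (key i) (L • B j + s • g j) x := by
          intro s hs
          refine avg_mono i j hji x y hle _ fun z w hzw => ?_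
          have h1 := hLb j z w
          have h3 : |(bn j z : ℝ) - bn j w| = (bn j w : ℝ) - bn j z := by
            rw [abs_sub_comm, abs_of_nonneg]; simpa using hzw
          rw [h3, abs_le] at h1
          rcases hs with rfl | rfl <;> simp [hB] <;> nlinarith
        have p := mono 1 (Or.inl rfl); have m := mono (-1) (Or.inr rfl)
        simp only [map_add, map_smul, Pi.add_apply, Pi.smul_apply, smul_eq_mul] at p m
        rw [abs_le]; constructor <;> nlinarith
      refine (Finset.sum_le_sum hj).trans (le_of_eq ?_)
      rw [← Finset.mul_sum, Finset.sum_sub_distrib]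
      congr 1
      have hlin : ∀ z, ∑ j ∈ univ.erase i, avg (key i) (B j) z
          = (((univ : Finset U).filter fun u => σ u = false).card : ℝ) - bn i z := by
        intro z
        rw [← Finset.sum_apply, ← map_sum]
        have : (∑ j ∈ univ.erase i, B j) = fun w =>
            (((univ : Finset U).filter fun u => σ u = false).card : ℝ) - bn i w := by
          funext w; rw [Finset.sum_apply]; exact sum_bn i w
        rw [this, avg_fixed]
        intro a b hab
        have : bn i a = bn i b := by
          rw [bn, bn]; congr 1; ext u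
          have := congrFun hab u
          simp only [key, decide_eq_decide] at this
          simp [bset, this]
        rw [this]
      rw [hlin, hlin]; ring
    have : L = 0 := by
      have hm := Finset.max'_mem S hne
      rcases Finset.mem_insert.1 hm with h | h
      · exact h
      · obtain ⟨⟨i, x, y⟩, _, he⟩ := Finset.mem_image.1 h
        simp only at he
        rw [← hL] at he
        rcases eq_or_ne (bn i x) (bn i y) with hxy | hxy
        · rw [hxy] at he; simp at he; linarith
        have hp : 0 < |(bn i x : ℝ) - bn i y| := abs_pos.2 (sub_ne_zero.2 (by exact_mod_cast hxy))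
        have key3 : (μ - 1) * |g i x - g i y| ≤ L * |(bn i x : ℝ) - bn i y| := by
          rcases le_total (bn i x) (bn i y) with hh | hh
          · refine (hstep i x y hh).trans (le_of_eq ?_)
            rw [abs_sub_comm, abs_of_nonneg]; simpa using hh
          · rw [abs_sub_comm (g i x)]
            refine (hstep i y x hh).trans (le_of_eq ?_)
            rw [abs_of_nonneg]; simpa using hh
        rw [div_eq_iff hp.ne'] at he
        rw [he] at key3
        by_contra hne0
        have hpos : 0 < L := lt_of_le_of_ne hL0 (Ne.symm hne0)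
        nlinarith [mul_pos hpos hp]
    intro i x y
    have := hLb i x y
    rw [‹L = 0›, zero_mul] at this
    exact sub_eq_zero.1 (abs_nonpos_iff.1 this)
  have hfc : ∀ x, f x = f x₀ := by
    intro x
    have h1 := hsum x; have h2 := hsum x₀
    simp only [fun j => hconst j x x₀] at h1
    exact mul_left_cancel₀ (by linarith : μ ≠ 0) (h1.symm.trans h2)
  have := hsum x₀
  have hg' : ∀ j, g j x₀ = f x₀ := fun j => by
    rw [hg]; exact congrFun (avg_fixed fun a b _ => (hfc b).trans (hfc a).symm) x₀
  simp only [hg', Finset.sum_const, Finset.card_univ, Fintype.card_fin] at this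
  exact hμ3 (mul_right_cancel₀ hx₀ (by simpa [nsmul_eq_mul] using this.symm))

/-- The three-row lemma. -/
theorem three_rows (f : St σ δ → ℝ) :
    ip ((∑ c : Fin 3, dev (key (σ := σ) (δ := δ) c)) f) f ≤
      ip ((∑ c : Fin 3, dev (key (σ := σ) (δ := δ) c)) f)
        ((∑ c : Fin 3, dev (key (σ := σ) (δ := δ) c)) f) := by
  classical
  refine le_sq_of_eigen _ ?_ ?_ f
  · intro a b
    simp only [LinearMap.sum_apply, ip_sum_left, ip_sum_right, dev_symm]
  · intro a l ha hl
    have : M a = (3 - l) • a := by
      funext z
      have := congrFun hl z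
      simp [dev, Finset.sum_sub_distrib] at this
      simp [M]; linarith
    rcases eigen_le_two a (3 - l) ha this with h | h
    · exact Or.inr (by linarith)
    · exact Or.inl (by linarith)

end Colour

end Vale.Agent.P335
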