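import Mathlib

/-! The switch chain on the simple graphs with a given degree sequence. -/

namespace Vale.Agent.P335

open Finset Classical

variable {n : ℕ}

/-- `Ω_d`: the simple graphs on `Fin n` with degree `d v` at every vertex `v`. -/
abbrev Omega (d : Fin n → ℕ) : Type :=
  {G : SimpleGraph (Fin n) // ∀ v, (G.neighborSet v).ncard = d v}

/-- The perfect matchings of the complete graph on `S`: sets of edges between distinct points of `S`
covering every point of `S` exactly once. -/
noncomputable def perfectMatchings (S : Finset (Fin n)) : Finset (Finset (Sym2 (Fin n))) :=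
  S.sym2.powerset.filter fun F =>
    (∀ e ∈ F, ¬ e.IsDiag) ∧ ∀ v ∈ S, (F.filter fun e => v ∈ e).card = 1

/-- The ordered pairs of distinct perfect matchings of the complete graph on `S`. -/
noncomputable def matchingPairs (S : Finset (Fin n)) :
    Finset (Finset (Sym2 (Fin n)) × Finset (Sym2 (Fin n))) :=
  (perfectMatchings S ×ˢ perfectMatchings S).filter fun p => p.1 ≠ p.2

/-- One move: replace `F` by `F'` if all edges of `F` are present and all edges of `F'` absent;
otherwise keep the graph. -/
noncomputable def move (G : SimpleGraph (Fin n)) (F F' : Finset (Sym2 (Fin n))) :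
    SimpleGraph (Fin n) :=
  if (∀ e ∈ F, e ∈ G.edgeSet) ∧ (∀ e ∈ F', e ∉ G.edgeSet) then
    SimpleGraph.fromEdgeSet ((G.edgeSet \ ↑F) ∪ ↑F')
  else G

/-- The transition matrix of the switch chain: with probability `1/2` stay; otherwise choose a
`4`-set uniformly, then an ordered pair of distinct perfect matchings on it uniformly, and move. -/
noncomputable def switchChain (d : Fin n → ℕ) : Matrix (Omega d) (Omega d) ℝ := fun G H =>
  (if G = H then (1 / 2 : ℝ) else 0) +
    (1 / 2) * (∑ S ∈ (univ : Finset (Fin n)).powersetCard 4,
      (∑ p ∈ matchingPairs S, if move G.1 p.1 p.2 = H.1 then (1 : ℝ) else 0)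
        / ((matchingPairs S).card : ℝ)) / (n.choose 4 : ℝ)

/-- The total variation distance between `P^t(G, ·)` and the uniform distribution on `Ω_d`. -/
noncomputable def tvDist (d : Fin n → ℕ) (t : ℕ) (G : Omega d) : ℝ :=
  (1 / 2) * ∑ H : Omega d, |(switchChain d ^ t) G H - 1 / (Fintype.card (Omega d) : ℝ)|

/-- `d` is a split degree sequence: some realisation splits into a clique `K` and an independent
set `Kᶜ`. -/
def IsSplitSequence (d : Fin n → ℕ) : Prop :=
  ∃ G : Omega d, ∃ K : Set (Fin n), G.1.IsClique K ∧ Kᶜ.Pairwise fun u v => ¬ G.1.Adj u v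

end Vale.Agent.P335
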