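import Vale.Agent.P335.Bip

/-! Comparison of the row-pair projections with rectangle flips. -/

namespace Vale.Agent.P335

open Finset

lemma ip_dev_le {Ω K : Type*} [Fintype Ω] [DecidableEq K] (κ : Ω → K) (g : Ω → ℝ) :
    ip (dev κ g) (dev κ g) ≤ ∑ u, ∑ v ∈ fib κ u, (g u - g v) ^ 2 := by
  refine Finset.sum_le_sum fun u _ => ?_
  set N : ℝ := ((fib κ u).card : ℝ)
  have hN : (1 : ℝ) ≤ N := by
    have : 0 < (fib κ u).card := Finset.card_pos.2 ⟨u, self_mem_fib κ u⟩
    exact Nat.one_le_cast.2 this
  have hd : dev κ g u = (∑ v ∈ fib κ u, (g u - g v)) / N := by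
    rw [Finset.sum_sub_distrib, Finset.sum_const, nsmul_eq_mul, dev_apply, Pi.sub_apply, avg_apply,
      sub_div]
    congr 1
    rw [mul_div_cancel_left₀]; linarith
  have hcs := sq_sum_le_card_mul_sum_sq (s := fib κ u) (f := fun v => g u - g v)
  have hpos : 0 ≤ ∑ v ∈ fib κ u, (g u - g v) ^ 2 := Finset.sum_nonneg fun v _ => sq_nonneg _
  rw [hd, div_mul_div_comm, div_le_iff₀ (by positivity)]
  calc _ = (∑ v ∈ fib κ u, (g u - g v)) ^ 2 := (sq _).symm
    _ ≤ N * ∑ v ∈ fib κ u, (g u - g v) ^ 2 := hcs
    _ ≤ N * N * ∑ v ∈ fib κ u, (g u - g v) ^ 2 :=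
        mul_le_mul_of_nonneg_right (by nlinarith) hpos
    _ = _ := by ring

namespace Bip

variable {A B : Type*} [Fintype A] [DecidableEq A] [Fintype B] [DecidableEq B]
  {r : A → ℕ} {c : B → ℕ}

/-- `y` is obtained from `x` by flipping an alternating rectangle. -/
def Flip (x y : Mat r c) : Prop :=
  ∃ a b j l, a ≠ b ∧ j ≠ l ∧ x.1 a j = true ∧ x.1 b l = true ∧ x.1 a l = false ∧ x.1 b j = false ∧
    ∀ i k, y.1 i k = if (i = a ∨ i = b) ∧ (k = j ∨ k = l) then !x.1 i k else x.1 i k

open Classical in
/-- The Dirichlet form of rectangle flips. -/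
noncomputable def flipForm (f : Mat r c → ℝ) : ℝ :=
  ∑ x, ∑ y, if Flip x y then (f x - f y) ^ 2 else 0

lemma flip_of_diff {a b : A} {j l : B} (hab : a ≠ b) (hjl : j ≠ l) (x y : Mat r c)
    (hout : ∀ i k, ¬ ((i = a ∨ i = b) ∧ (k = j ∨ k = l)) → y.1 i k = x.1 i k) (hne : x ≠ y) :
    Flip x y := by
  have hra : ∀ i, i = a ∨ i = b → (y.1 i j).toNat + (y.1 i l).toNat = (x.1 i j).toNat + (x.1 i l).toNat := by
    intro i hi
    have h1 := x.2.1 i; have h2 := y.2.1 i
    rw [← Finset.sum_add_sum_compl {j, l}, Finset.sum_pair hjl] at h1 h2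
    have : ∑ k ∈ ({j, l} : Finset B)ᶜ, (y.1 i k).toNat = ∑ k ∈ ({j, l} : Finset B)ᶜ, (x.1 i k).toNat :=
      Finset.sum_congr rfl fun k hk => by
        rw [hout i k]; rintro ⟨-, h⟩; simp at hk; rcases h with h | h
        · exact hk.1 h
        · exact hk.2 h
    omega
  have hco : ∀ k, k = j ∨ k = l → (y.1 a k).toNat + (y.1 b k).toNat = (x.1 a k).toNat + (x.1 b k).toNat := by
    intro k hk
    have h1 := x.2.2 k; have h2 := y.2.2 k
    rw [← Finset.sum_add_sum_compl {a, b}, Finset.sum_pair hab] at h1 h2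
    have : ∑ i ∈ ({a, b} : Finset A)ᶜ, (y.1 i k).toNat = ∑ i ∈ ({a, b} : Finset A)ᶜ, (x.1 i k).toNat :=
      Finset.sum_congr rfl fun i hi => by
        rw [hout i k]; rintro ⟨h, -⟩; simp at hi; rcases h with h | h
        · exact hi.1 h
        · exact hi.2 h
    omega
  have h1 := hra a (Or.inl rfl); have h2 := hra b (Or.inr rfl)
  have h3 := hco j (Or.inl rfl); have h4 := hco l (Or.inr rfl)
  have hall : ¬ (y.1 a j = x.1 a j ∧ y.1 a l = x.1 a l ∧ y.1 b j = x.1 b j ∧ y.1 b l = x.1 b l) := by
    rintro ⟨e1, e2, e3, e4⟩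
    refine hne (Mat.ext (funext fun i => funext fun k => ?_))
    by_cases h : (i = a ∨ i = b) ∧ (k = j ∨ k = l)
    · rcases h with ⟨rfl | rfl, rfl | rfl⟩ <;> simp [e1, e2, e3, e4]
    · exact (hout i k h).symm
  cases hxaj : x.1 a j <;> cases hxal : x.1 a l <;> cases hxbj : x.1 b j <;> cases hxbl : x.1 b l <;>
    cases hyaj : y.1 a j <;> cases hyal : y.1 a l <;> cases hybj : y.1 b j <;> cases hybl : y.1 b l <;>
    simp_all only [Bool.toNat_false, Bool.toNat_true, Nat.zero_add, Nat.add_zero, and_self,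
      not_true_eq_false, Nat.reduceAdd, zero_ne_one, one_ne_zero, OfNat.ofNat_ne_one,
      OfNat.one_ne_ofNat, OfNat.ofNat_ne_zero, OfNat.zero_ne_ofNat]
  · refine ⟨b, a, j, l, hab.symm, hjl, hxbj, hxal, hxbl, hxaj, fun i k => ?_⟩
    by_cases h : (i = a ∨ i = b) ∧ (k = j ∨ k = l)
    · rcases h with ⟨rfl | rfl, rfl | rfl⟩ <;> simp [*]
    · rw [hout i k h, if_neg]; rintro ⟨h1, h2⟩; exact h ⟨h1.symm, h2⟩
  · refine ⟨a, b, j, l, hab, hjl, hxaj, hxbl, hxal, hxbj, fun i k => ?_⟩
    by_cases h : (i = a ∨ i = b) ∧ (k = j ∨ k = l)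
    · rcases h with ⟨rfl | rfl, rfl | rfl⟩ <;> simp [*]
    · rw [hout i k h, if_neg h]

theorem poincare_flip (f : Mat r c → ℝ) (h0 : ∑ x, f x = 0) :
    4 * ip f f ≤ ((Fintype.card A : ℝ) ^ 2 * (Fintype.card B : ℝ) ^ 2) * flipForm f := by
  classical
  set W : Mat r c → Mat r c → ℝ := fun x y => if Flip x y then (f x - f y) ^ 2 else 0 with hW
  have hW0 : ∀ x y, 0 ≤ W x y := fun x y => by simp only [hW]; split_ifs <;> positivity
  have hFF : 0 ≤ flipForm f := Finset.sum_nonneg fun x _ => Finset.sum_nonneg fun y _ => hW0 x y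
  have hpair : ∀ a b : A, a ≠ b → 2 * ip (dev (key {a, b}) f) (dev (key {a, b}) f)
      ≤ (Fintype.card B : ℝ) ^ 2 * flipForm f := by
    intro a b hab
    set s : Finset A := {a, b}
    have hs : s.Nonempty := ⟨a, by simp [s]⟩
    have fibre : ∀ z, 2 * ip (fun x : {x // key s x = z} => dev (key s) f x.1) (fun x => dev (key s) f x.1)
        ≤ (Fintype.card B : ℝ) ^ 2 * ∑ x : {x // key s x = z}, ∑ y, W x.1 y := by
      intro z
      by_cases hz : ∃ x₀ : Mat r c, key s x₀ = z
      swap
      · haveI : IsEmpty {x : Mat r c // key s x = z} := ⟨fun x => hz ⟨x.1, x.2⟩⟩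
        simp [ip]
      obtain ⟨x₀, rfl⟩ := hz
      let τ : B → ℕ := fun j => ∑ l ∈ s, (x₀.1 l j).toNat
      let Q := Mat (A := B) (B := {i : A // i ∈ s}) τ (fun i => r i.1)
      let e : Q ≃ {x : Mat r c // key s x = key s x₀} :=
        { toFun := fun q =>
            ⟨⟨fun i k => if h : i ∈ s then q.1 k ⟨i, h⟩ else x₀.1 i k, by
              refine ⟨fun i => ?_, fun k => ?_⟩
              · by_cases hi : i ∈ s
                · simp only [dif_pos hi]; exact q.2.2 ⟨i, hi⟩
                · simp only [dif_neg hi]; exact x₀.2.1 i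
              · rw [← x₀.2.2 k, ← Finset.sum_add_sum_compl s, ← Finset.sum_add_sum_compl s (fun i => (x₀.1 i k).toNat)]
                congr 1
                · rw [← Finset.sum_coe_sort s]
                  simp only [Finset.coe_mem, dif_pos]
                  exact (q.2.1 k)
                · exact Finset.sum_congr rfl fun i hi => by simp [Finset.mem_compl.1 hi]⟩, by
              rw [key_eq_iff s hs]
              refine ⟨fun i hi => funext fun k => by simp [hi], fun k => ?_⟩
              show ∑ i ∈ s, _ = τ k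
              rw [← Finset.sum_coe_sort s]
              simp only [Finset.coe_mem, dif_pos]
              exact q.2.1 k⟩
          invFun := fun x => ⟨fun k i => x.1.1 i.1 k, by
            refine ⟨fun k => ?_, fun i => x.1.2.1 i.1⟩
            rw [Finset.sum_coe_sort s (fun i => (x.1.1 i k).toNat)]
            exact ((key_eq_iff s hs _ _).1 x.2).2 k⟩
          left_inv := fun q => by ext k i; simp
          right_inv := fun x => by
            apply Subtype.ext; apply Mat.ext; funext i k
            by_cases hi : i ∈ s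
            · simp [hi]
            · simp [hi, ((key_eq_iff s hs _ _).1 x.2).1 i hi] }
      let g : Q → ℝ := fun q => dev (key s) f (e q).1
      have hmean : ∀ q : Q, avg (key s) f (e q).1 = avg (key s) f x₀ := fun q => avg_congr f (e q).2
      have hsum : ∑ q, g q = 0 := by
        have hfib : ∑ y ∈ fib (key s) x₀, dev (key s) f y = 0 := by
          rw [Finset.sum_congr rfl (fun y hy => show dev (key s) f y = f y - avg (key s) f x₀ by
            rw [dev_apply, Pi.sub_apply, avg_congr f (mem_fib.1 hy)]), Finset.sum_sub_distrib,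
            Finset.sum_const, nsmul_eq_mul, avg_apply]
          have := fib_card_pos (key s) x₀
          field_simp; ring
        rw [← hfib, Finset.sum_subtype (fib (key s) x₀) (p := fun x => key s x = key s x₀)
          (fun x => mem_fib)]
        exact e.sum_comp (fun x : {x // key s x = key s x₀} => dev (key s) f x.1)
      have hgd : ∀ u v : Q, g u - g v = f (e u).1 - f (e v).1 := by
        intro u v; simp only [g, dev_apply, Pi.sub_apply, hmean]; ring
      have h2 := poincare g hsum
      have hQ : ip (R2 g) g ≤ (Fintype.card B : ℝ) ^ 2 * ∑ u : Q, ∑ y, W (e u).1 y := by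
        rw [ip_R2_self]
        have hb : ∀ j l : B, j ≠ l → ip (dev (key {j, l}) g) (dev (key {j, l}) g)
            ≤ ∑ u : Q, ∑ y, W (e u).1 y := by
          intro j l hjl
          refine (ip_dev_le _ g).trans (Finset.sum_le_sum fun u _ => ?_)
          have h1 : ∀ v ∈ fib (key {j, l}) u, (g u - g v) ^ 2 = W (e u).1 (e v).1 := by
            intro v hv
            rw [hgd]
            by_cases huv : (e u).1 = (e v).1
            · simp [hW, huv]
            have hk := (key_eq_iff {j, l} ⟨j, by simp⟩ _ _).1 (mem_fib.1 hv)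
            have : Flip (e u).1 (e v).1 := by
              refine flip_of_diff hab hjl _ _ (fun i k hik => ?_) huv
              show (if h : i ∈ s then v.1 k ⟨i, h⟩ else x₀.1 i k) = if h : i ∈ s then u.1 k ⟨i, h⟩ else x₀.1 i k
              by_cases hi : i ∈ s
              · have hk' : k ∉ ({j, l} : Finset B) := by
                  intro hk2; simp [s] at hi; simp at hk2; exact hik ⟨hi, hk2⟩
                simp only [dif_pos hi]; rw [hk.1 k hk']
              · simp only [dif_neg hi]
            simp [hW, this]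
          rw [Finset.sum_congr rfl h1]
          have hinj : Set.InjOn (fun v : Q => (e v).1) (fib (key {j, l}) u : Set Q) :=
            fun p _ q _ h => e.injective (Subtype.ext h)
          rw [← Finset.sum_image (f := fun y => W (e u).1 y) hinj]
          exact Finset.sum_le_sum_of_subset_of_nonneg (Finset.subset_univ _) fun y _ _ => hW0 _ _
        have hS : 0 ≤ ∑ u : Q, ∑ y, W (e u).1 y :=
          Finset.sum_nonneg fun u _ => Finset.sum_nonneg fun y _ => hW0 _ _
        calc (∑ j : B, ∑ l ∈ univ.erase j, ip (dev (key {j, l}) g) (dev (key {j, l}) g))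
            ≤ ∑ j : B, ∑ l ∈ univ.erase j, ∑ u : Q, ∑ y, W (e u).1 y :=
              Finset.sum_le_sum fun j _ => Finset.sum_le_sum fun l hl =>
                hb j l (Finset.ne_of_mem_erase hl).symm
          _ ≤ ∑ j : B, ∑ l : B, ∑ u : Q, ∑ y, W (e u).1 y :=
              Finset.sum_le_sum fun j _ =>
                Finset.sum_le_sum_of_subset_of_nonneg (Finset.erase_subset _ _) fun _ _ _ => hS
          _ = _ := by simp [Finset.card_univ]; ring
      have e1 : ip g g = ip (fun x : {x // key s x = key s x₀} => dev (key s) f x.1) (fun x => dev (key s) f x.1) :=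
        e.sum_comp (fun x : {x // key s x = key s x₀} => dev (key s) f x.1 * dev (key s) f x.1)
      rw [← e1, ← e.sum_comp]
      linarith
    haveI : Fintype (Set.range (key (r := r) (c := c) s)) := Fintype.ofFinite _
    let κ' : Mat r c → Set.range (key (r := r) (c := c) s) := fun x => ⟨key s x, x, rfl⟩
    rw [ip_fibrewise κ', Finset.mul_sum]
    have hff : flipForm f = ∑ z, ∑ x : {x // κ' x = z}, ∑ y, W x.1 y := by
      rw [flipForm, ← Finset.sum_fiberwise univ κ']
      exact Finset.sum_congr rfl fun z _ => Finset.sum_subtype _ (fun x => by simp) _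
    rw [hff, Finset.mul_sum]
    refine Finset.sum_le_sum fun z _ => ?_
    have := fibre z.1
    let e' : {x // κ' x = z} ≃ {x : Mat r c // key s x = z.1} :=
      Equiv.subtypeEquivRight fun x => by simp [κ', Subtype.ext_iff]
    simp only [ip] at this ⊢
    rw [← e'.sum_comp, ← e'.sum_comp] at this
    exact this
  have h := poincare f h0
  rw [ip_R2_self] at h
  have hS : 0 ≤ (Fintype.card B : ℝ) ^ 2 * flipForm f := by positivity
  have : (∑ a : A, ∑ b ∈ univ.erase a, 2 * ip (dev (key {a, b}) f) (dev (key {a, b}) f))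
      ≤ ∑ a : A, ∑ b : A, (Fintype.card B : ℝ) ^ 2 * flipForm f :=
    Finset.sum_le_sum fun a _ => (Finset.sum_le_sum fun b hb => hpair a b (Finset.ne_of_mem_erase hb).symm).trans
      (Finset.sum_le_sum_of_subset_of_nonneg (Finset.erase_subset _ _) fun _ _ _ => hS)
  simp only [← Finset.mul_sum, Finset.sum_const, Finset.card_univ, nsmul_eq_mul] at this
  calc 4 * ip f f ≤ 2 * ∑ a : A, ∑ b ∈ univ.erase a, ip (dev (key {a, b}) f) (dev (key {a, b}) f) := by linarith
    _ ≤ _ := this.trans (le_of_eq (by ring))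

end Bip

end Vale.Agent.P335
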