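import Vale.Agent.P335.Flip
import Vale.Agent.P335.Chain

/-! Split degree sequences. -/

namespace Vale.Agent.P335

open Finset Classical

variable {n : ℕ}

lemma ncard_nbr (G : SimpleGraph (Fin n)) (v : Fin n) :
    (G.neighborSet v).ncard = ((univ : Finset (Fin n)).filter fun w => G.Adj v w).card := by
  rw [Set.ncard_eq_toFinset_card']; congr 1; ext w; simp

/-- In a split degree sequence every realisation has the same clique and independent set. -/
lemma split_all {d : Fin n → ℕ} {G₀ : Omega d} {K : Finset (Fin n)}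
    (hK : ∀ u ∈ K, ∀ v ∈ K, u ≠ v → G₀.1.Adj u v) (hI : ∀ u ∉ K, ∀ v ∉ K, ¬ G₀.1.Adj u v)
    (G : Omega d) :
    (∀ u ∈ K, ∀ v ∈ K, u ≠ v → G.1.Adj u v) ∧ (∀ u ∉ K, ∀ v ∉ K, ¬ G.1.Adj u v) := by
  let X : SimpleGraph (Fin n) → ℤ := fun H =>
    ∑ u ∈ K, ∑ v ∈ K, if u ≠ v ∧ ¬ H.Adj u v then 1 else 0
  let Y : SimpleGraph (Fin n) → ℤ := fun H => ∑ u ∈ Kᶜ, ∑ v ∈ Kᶜ, if H.Adj u v then 1 else 0
  have key : ∀ H : Omega d, (∑ u ∈ K, (d u : ℤ)) - ∑ u ∈ Kᶜ, (d u : ℤ)
      = (∑ u ∈ K, ∑ v ∈ K, if u ≠ v then (1:ℤ) else 0) - X H.1 - Y H.1 := by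
    intro H
    have hd : ∀ u, (d u : ℤ) = ∑ v, if H.1.Adj u v then (1:ℤ) else 0 := by
      intro u; rw [← H.2 u, ncard_nbr, Finset.card_filter]; push_cast; rfl
    simp only [hd, X, Y]
    have h1 : ∀ u, (∑ v, if H.1.Adj u v then (1:ℤ) else 0) = (∑ v ∈ K, if H.1.Adj u v then (1:ℤ) else 0)
        + ∑ v ∈ Kᶜ, if H.1.Adj u v then (1:ℤ) else 0 := fun u => (Finset.sum_add_sum_compl K _).symm
    simp only [h1, Finset.sum_add_distrib]
    have hsym : ∑ u ∈ Kᶜ, ∑ v ∈ K, (if H.1.Adj u v then (1:ℤ) else 0)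
        = ∑ u ∈ K, ∑ v ∈ Kᶜ, if H.1.Adj u v then (1:ℤ) else 0 := by
      rw [Finset.sum_comm]; simp only [SimpleGraph.adj_comm]
    have hK' : ∑ u ∈ K, ∑ v ∈ K, (if H.1.Adj u v then (1:ℤ) else 0)
        + ∑ u ∈ K, ∑ v ∈ K, (if u ≠ v ∧ ¬ H.1.Adj u v then (1:ℤ) else 0)
        = ∑ u ∈ K, ∑ v ∈ K, if u ≠ v then (1:ℤ) else 0 := by
      simp only [← Finset.sum_add_distrib]
      refine Finset.sum_congr rfl fun u _ => Finset.sum_congr rfl fun v _ => ?_
      by_cases h : H.1.Adj u v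
      · simp [h, h.ne]
      · simp [h]
    linarith
  have h0 : X G₀.1 = 0 ∧ Y G₀.1 = 0 := by
    constructor
    · refine Finset.sum_eq_zero fun u hu => Finset.sum_eq_zero fun v hv => if_neg ?_
      rintro ⟨h1, h2⟩; exact h2 (hK u hu v hv h1)
    · exact Finset.sum_eq_zero fun u hu => Finset.sum_eq_zero fun v hv =>
        if_neg (hI u (Finset.mem_compl.1 hu) v (Finset.mem_compl.1 hv))
  have nx : ∀ H : SimpleGraph (Fin n), ∀ u ∈ K, 0 ≤ ∑ v ∈ K, (if u ≠ v ∧ ¬ H.Adj u v then (1:ℤ) else 0) := fun H u _ =>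
    Finset.sum_nonneg fun v _ => by split_ifs <;> norm_num
  have ny : ∀ H : SimpleGraph (Fin n), ∀ u ∈ Kᶜ, 0 ≤ ∑ v ∈ Kᶜ, (if H.Adj u v then (1:ℤ) else 0) := fun H u _ =>
    Finset.sum_nonneg fun v _ => by split_ifs <;> norm_num
  have hX : 0 ≤ X G.1 := Finset.sum_nonneg (nx G.1)
  have hY : 0 ≤ Y G.1 := Finset.sum_nonneg (ny G.1)
  have e1 := key G; have e2 := key G₀
  have x0 : X G.1 = 0 := by omega
  have y0 : Y G.1 = 0 := by omega
  constructor
  · intro u hu v hv hne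
    by_contra hA
    have := (Finset.sum_eq_zero_iff_of_nonneg (nx G.1)).1 x0 u hu
    have := (Finset.sum_eq_zero_iff_of_nonneg (fun w _ => by split_ifs <;> norm_num)).1 this v hv
    simp [hne, hA] at this
  · intro u hu v hv hA
    have := (Finset.sum_eq_zero_iff_of_nonneg (ny G.1)).1 y0 u (Finset.mem_compl.2 hu)
    have := (Finset.sum_eq_zero_iff_of_nonneg (fun w _ => by split_ifs <;> norm_num)).1 this v
      (Finset.mem_compl.2 hv)
    simp [hA] at this

lemma jump_ge_of_switch {d : Fin n → ℕ} (G H : Omega d) (a b j l : Fin n)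
    (hab : a ≠ b) (haj : a ≠ j) (hal : a ≠ l) (hbj : b ≠ j) (hbl : b ≠ l) (hjl : j ≠ l)
    (h1 : G.1.Adj a j) (h2 : G.1.Adj b l) (h3 : ¬ G.1.Adj a l) (h4 : ¬ G.1.Adj b j)
    (hH : ∀ u v, H.1.Adj u v ↔
      (G.1.Adj u v ∧ ¬ (s(u, v) = s(a, j) ∨ s(u, v) = s(b, l))) ∨ s(u, v) = s(a, l) ∨ s(u, v) = s(b, j)) :
    1 ≤ ((n.choose 4 : ℝ) * 2 ^ 20) * jump d G H := by
  set S : Finset (Fin n) := {a, b, j, l}
  have hS : S.card = 4 := Finset.card_eq_four.2 ⟨a, b, j, l, hab, haj, hal, hbj, hbl, hjl, rfl⟩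
  set p : Finset (Sym2 (Fin n)) × Finset (Sym2 (Fin n)) := ({s(a, j), s(b, l)}, {s(a, l), s(b, j)})
  have hp : p ∈ matchingPairs S := by
    simp only [matchingPairs, perfectMatchings, Finset.mem_filter, Finset.mem_product, Finset.mem_powerset, p, S]
    refine ⟨⟨⟨?_, ?_, ?_⟩, ⟨?_, ?_, ?_⟩⟩, ?_⟩
    · intro x hx; simp at hx; rcases hx with rfl | rfl <;> simp
    · intro x hx; simp at hx; rcases hx with rfl | rfl <;> simp [haj, hbl]
    · intro v hv; simp at hv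
      rcases hv with rfl | rfl | rfl | rfl <;>
        simp [Finset.filter_insert, Finset.filter_singleton, *, Ne.symm hab, Ne.symm haj, Ne.symm hal,
          Ne.symm hbj, Ne.symm hbl, Ne.symm hjl]
    · intro x hx; simp at hx; rcases hx with rfl | rfl <;> simp
    · intro x hx; simp at hx; rcases hx with rfl | rfl <;> simp [hal, hbj]
    · intro v hv; simp at hv
      rcases hv with rfl | rfl | rfl | rfl <;>
        simp [Finset.filter_insert, Finset.filter_singleton, *, Ne.symm hab, Ne.symm haj, Ne.symm hal,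
          Ne.symm hbj, Ne.symm hbl, Ne.symm hjl]
    · intro h
      have := Finset.ext_iff.1 h s(a, j)
      simp [hjl, hab, hal, haj] at this
  have hmove : move G.1 p.1 p.2 = H.1 := by
    unfold move
    rw [if_pos]
    · ext u v
      rw [SimpleGraph.fromEdgeSet_adj, hH]
      simp only [p, Set.mem_union, Set.mem_diff, SimpleGraph.mem_edgeSet, Finset.coe_insert,
        Finset.coe_singleton, Set.mem_insert_iff, Set.mem_singleton_iff]
      constructor
      · exact fun h => h.1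
      · intro h
        refine ⟨h, fun huv => ?_⟩
        subst huv
        rcases h with ⟨h, -⟩ | h | h
        · exact h.ne rfl
        · rcases Sym2.eq_iff.1 h with ⟨h1, h2⟩ | ⟨h1, h2⟩
          · exact hal (h1.symm.trans h2)
          · exact hal (h2.symm.trans h1)
        · rcases Sym2.eq_iff.1 h with ⟨h1, h2⟩ | ⟨h1, h2⟩
          · exact hbj (h1.symm.trans h2)
          · exact hbj (h2.symm.trans h1)
    · constructor
      · intro e he; simp [p] at he; rcases he with rfl | rfl <;> simp [h1, h2]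
      · intro e he; simp [p] at he; rcases he with rfl | rfl <;> simp [h3, h4]
  have hSm : S ∈ (univ : Finset (Fin n)).powersetCard 4 :=
    Finset.mem_powersetCard.2 ⟨Finset.subset_univ _, hS⟩
  have hcard : ((matchingPairs S).card : ℝ) ≤ 2 ^ 20 := by
    have h1 : (perfectMatchings S).card ≤ 2 ^ 10 := by
      refine (Finset.card_filter_le _ _).trans ?_
      rw [Finset.card_powerset, Finset.card_sym2, hS]; decide
    have h2 : (matchingPairs S).card ≤ 2 ^ 20 := by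
      refine (Finset.card_filter_le _ _).trans ?_
      rw [Finset.card_product]; exact (Nat.mul_le_mul h1 h1).trans (by norm_num)
    exact_mod_cast h2
  have hpos : (0 : ℝ) < ((matchingPairs S).card : ℝ) := by exact_mod_cast Finset.card_pos.2 ⟨p, hp⟩
  have hC : (0 : ℝ) < (n.choose 4 : ℝ) := by
    have : 4 ≤ n := by simpa [hS] using Finset.card_le_univ S
    exact_mod_cast Nat.choose_pos this
  have hterm : 1 / (2 ^ 20 : ℝ) ≤ (∑ q ∈ matchingPairs S, if move G.1 q.1 q.2 = H.1 then (1 : ℝ) else 0)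
      / ((matchingPairs S).card : ℝ) := by
    refine le_trans (one_div_le_one_div_of_le hpos hcard) ((div_le_div_iff_of_pos_right hpos).2 ?_)
    refine le_trans (le_of_eq (if_pos hmove).symm)
      (Finset.single_le_sum (f := fun q => if move G.1 q.1 q.2 = H.1 then (1 : ℝ) else 0) (fun q _ => ?_) hp)
    split_ifs <;> norm_num
  have hsum : 1 / (2 ^ 20 : ℝ) ≤ jump d G H * (n.choose 4 : ℝ) := by
    rw [jump, div_mul_cancel₀ _ hC.ne']
    refine hterm.trans (Finset.single_le_sum (f := fun S => (∑ q ∈ matchingPairs S,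
      if move G.1 q.1 q.2 = H.1 then (1 : ℝ) else 0) / ((matchingPairs S).card : ℝ)) (fun S _ => ?_) hSm)
    refine div_nonneg (Finset.sum_nonneg fun q _ => ?_) (Nat.cast_nonneg _)
    split_ifs <;> norm_num
  rw [div_le_iff₀ (by positivity)] at hsum
  linarith

lemma sum_KI (K : Finset (Fin n)) (g : Fin n → ℕ) :
    ∑ v, g v = (∑ a : {v // v ∈ K}, g a.1) + ∑ b : {v // v ∉ K}, g b.1 := by
  rw [← Finset.sum_add_sum_compl K, ← Finset.sum_coe_sort K,
    Finset.sum_subtype Kᶜ (p := fun v => v ∉ K) (fun x => Finset.mem_compl)]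

/-- The graphs of a split sequence are the 0/1 matrices with the corresponding margins. -/
lemma split_equiv {d : Fin n → ℕ} (G₀ : Omega d) (K : Finset (Fin n))
    (hall : ∀ G : Omega d,
      (∀ u ∈ K, ∀ v ∈ K, u ≠ v → G.1.Adj u v) ∧ (∀ u ∉ K, ∀ v ∉ K, ¬ G.1.Adj u v)) :
    ∃ Φ : Omega d ≃ Bip.Mat (fun b : {v // v ∉ K} => d b.1)
        (fun a : {v // v ∈ K} => d a.1 + 1 - K.card),
      ∀ G u v, (Φ G).1 u v = decide (G.1.Adj u.1 v.1) := by
  let R := {v : Fin n // v ∉ K}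
  let C := {v : Fin n // v ∈ K}
  let r : {v // v ∉ K} → ℕ := fun b => d b.1
  let c : {v // v ∈ K} → ℕ := fun a => d a.1 + 1 - K.card
  have hrow : ∀ (G : Omega d) (b : {v // v ∉ K}),
      ∑ a : {v // v ∈ K}, (decide (G.1.Adj b.1 a.1)).toNat = d b.1 := by
    intro G b
    rw [← G.2 b.1, ncard_nbr, Finset.card_filter, sum_KI K,
      Finset.sum_eq_zero (s := (univ : Finset {v // v ∉ K}))
      (fun v _ => if_neg ((hall G).2 b.1 b.2 v.1 v.2)), add_zero]
    exact Finset.sum_congr rfl fun a _ => by by_cases h : G.1.Adj b.1 a.1 <;> simp [h]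
  have hcol : ∀ (G : Omega d) (a : {v // v ∈ K}),
      (∑ b : {v // v ∉ K}, (decide (G.1.Adj b.1 a.1)).toNat) + K.card = d a.1 + 1 := by
    intro G a
    rw [← G.2 a.1, ncard_nbr, Finset.card_filter, sum_KI K]
    have e1 : (∑ v : {v // v ∈ K}, if G.1.Adj a.1 v.1 then (1:ℕ) else 0) + 1 = K.card := by
      rw [← Finset.card_erase_add_one a.2]
      congr 1
      rw [Finset.sum_coe_sort K (fun v => if G.1.Adj a.1 v then 1 else 0), ← Finset.card_filter]
      congr 1; ext v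
      simp only [Finset.mem_filter, Finset.mem_erase]
      exact ⟨fun h => ⟨h.2.ne.symm, h.1⟩, fun h => ⟨h.2, (hall G).1 _ a.2 _ h.2 (Ne.symm h.1)⟩⟩
    have e2 : (∑ b : {v // v ∉ K}, (decide (G.1.Adj b.1 a.1)).toNat)
        = ∑ v : {v // v ∉ K}, if G.1.Adj a.1 v.1 then (1:ℕ) else 0 :=
      Finset.sum_congr rfl fun b _ => by
        by_cases h : G.1.Adj b.1 a.1
        · simp [h, h.symm]
        · simp [h, show ¬ G.1.Adj a.1 b.1 from fun h' => h h'.symm]
    omega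
  let toMat : Omega d → Bip.Mat r c := fun G => ⟨fun b a => decide (G.1.Adj b.1 a.1),
    fun b => hrow G b, fun a => by have := hcol G a; show _ = d a.1 + 1 - K.card; omega⟩
  obtain ⟨gr, gr_adj⟩ : ∃ gr : Bip.Mat r c → SimpleGraph (Fin n),
      ∀ x u v, (gr x).Adj u v ↔ u ≠ v ∧ ((u ∈ K ∧ v ∈ K) ∨
      (∃ (hu : u ∉ K) (hv : v ∈ K), x.1 ⟨u, hu⟩ ⟨v, hv⟩ = true) ∨
      ∃ (hv : v ∉ K) (hu : u ∈ K), x.1 ⟨v, hv⟩ ⟨u, hu⟩ = true) := by
    refine ⟨fun x => SimpleGraph.fromRel fun u v =>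
      (u ∈ K ∧ v ∈ K) ∨ ∃ (hu : u ∉ K) (hv : v ∈ K), x.1 ⟨u, hu⟩ ⟨v, hv⟩ = true, fun x u v => ?_⟩
    rw [SimpleGraph.fromRel_adj]
    constructor
    · rintro ⟨h, (h' | h') | (⟨h1, h2⟩ | h')⟩
      · exact ⟨h, Or.inl h'⟩
      · exact ⟨h, Or.inr (Or.inl h')⟩
      · exact ⟨h, Or.inl ⟨h2, h1⟩⟩
      · exact ⟨h, Or.inr (Or.inr h')⟩
    · rintro ⟨h, h' | h' | h'⟩
      · exact ⟨h, Or.inl (Or.inl h')⟩
      · exact ⟨h, Or.inl (Or.inr h')⟩
      · exact ⟨h, Or.inr (Or.inr h')⟩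
  have gr_ok : ∀ x v, ((gr x).neighborSet v).ncard = d v := by
    intro x v
    rw [ncard_nbr, Finset.card_filter, sum_KI K]
    by_cases hv : v ∈ K
    · have e1 : (∑ w : {w // w ∈ K}, if (gr x).Adj v w.1 then (1:ℕ) else 0) + 1 = K.card := by
        rw [← Finset.card_erase_add_one hv]
        congr 1
        rw [Finset.sum_coe_sort K (fun w => if (gr x).Adj v w then 1 else 0), ← Finset.card_filter]
        congr 1; ext w
        simp only [Finset.mem_filter, Finset.mem_erase, gr_adj]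
        exact ⟨fun h => ⟨h.2.1.symm, h.1⟩, fun h => ⟨h.2, Ne.symm h.1, Or.inl ⟨hv, h.2⟩⟩⟩
      have e2 : (∑ w : {w // w ∉ K}, if (gr x).Adj v w.1 then (1:ℕ) else 0)
          = ∑ b : {v // v ∉ K}, (x.1 b ⟨v, hv⟩).toNat := by
        refine Finset.sum_congr rfl fun b _ => ?_
        have hne : v ≠ b.1 := fun h => b.2 (h ▸ hv)
        cases h : x.1 b ⟨v, hv⟩
        · rw [if_neg]; · rfl
          rw [gr_adj]
          rintro ⟨-, ⟨-, h'⟩ | ⟨h', -⟩ | ⟨h1, h2, h3⟩⟩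
          · exact b.2 h'
          · exact h' hv
          · rw [show (⟨b.1, h1⟩ : {v // v ∉ K}) = b from rfl, h] at h3; exact Bool.noConfusion h3
        · rw [if_pos]; · rfl
          rw [gr_adj]; exact ⟨hne, Or.inr (Or.inr ⟨b.2, hv, h⟩)⟩
      have := x.2.2 ⟨v, hv⟩
      have := hcol G₀ ⟨v, hv⟩
      simp only [c] at *
      omega
    · have e2 : (∑ w : {w // w ∉ K}, if (gr x).Adj v w.1 then (1:ℕ) else 0) = 0 := by
        refine Finset.sum_eq_zero fun w _ => if_neg ?_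
        rw [gr_adj]; rintro ⟨-, ⟨h, -⟩ | ⟨-, h, -⟩ | ⟨-, h, -⟩⟩
        · exact hv h
        · exact w.2 h
        · exact hv h
      have hx : _ = d v := x.2.1 ⟨v, hv⟩
      rw [e2, add_zero, ← hx]
      refine Finset.sum_congr rfl fun a _ => ?_
      have hne : v ≠ a.1 := fun h => hv (h ▸ a.2)
      cases h : x.1 ⟨v, hv⟩ a
      · rw [if_neg]; · rfl
        rw [gr_adj]
        rintro ⟨-, ⟨h', -⟩ | ⟨h1, h2, h3⟩ | ⟨-, h', -⟩⟩
        · exact hv h'
        · rw [show (⟨a.1, h2⟩ : {v // v ∈ K}) = a from rfl, h] at h3; exact Bool.noConfusion h3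
        · exact hv h'
      · rw [if_pos]; · rfl
        rw [gr_adj]; exact ⟨hne, Or.inr (Or.inl ⟨hv, a.2, h⟩)⟩
  let Φ : Omega d ≃ Bip.Mat r c :=
    { toFun := toMat
      invFun := fun x => ⟨gr x, gr_ok x⟩
      left_inv := by
        intro G; apply Subtype.ext; ext u v
        show (gr (toMat G)).Adj u v ↔ _
        rw [gr_adj]
        simp only [toMat, decide_eq_true_eq, exists_prop]
        constructor
        · rintro ⟨hne, ⟨hu, hv⟩ | ⟨-, -, h⟩ | ⟨-, -, h⟩⟩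
          · exact (hall G).1 u hu v hv hne
          · exact h
          · exact h.symm
        · intro h
          refine ⟨h.ne, ?_⟩
          by_cases hu : u ∈ K <;> by_cases hv : v ∈ K
          · exact Or.inl ⟨hu, hv⟩
          · exact Or.inr (Or.inr ⟨hv, hu, h.symm⟩)
          · exact Or.inr (Or.inl ⟨hu, hv, h⟩)
          · exact absurd h ((hall G).2 u hu v hv)
      right_inv := by
        intro x; ext b a
        show decide ((gr x).Adj b.1 a.1) = _
        have hne : b.1 ≠ a.1 := fun h => b.2 (h ▸ a.2)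
        cases h : x.1 b a
        · simp only [decide_eq_false_iff_not, gr_adj]
          rintro ⟨-, ⟨h', -⟩ | ⟨h1, h2, h3⟩ | ⟨h', -⟩⟩
          · exact b.2 h'
          · rw [show (⟨b.1, h1⟩ : {v // v ∉ K}) = b from rfl, show (⟨a.1, h2⟩ : {v // v ∈ K}) = a from rfl, h] at h3
            exact Bool.noConfusion h3
          · exact h' a.2
        · simp only [decide_eq_true_eq, gr_adj]
          exact ⟨hne, Or.inr (Or.inl ⟨b.2, a.2, h⟩)⟩ }
  exact ⟨Φ, fun G u v => rfl⟩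

/-- Every rectangle flip is a switch. -/
lemma split_flip {d : Fin n → ℕ} {K : Finset (Fin n)} {r : {v // v ∉ K} → ℕ} {c : {v // v ∈ K} → ℕ}
    (hall : ∀ G : Omega d,
      (∀ u ∈ K, ∀ v ∈ K, u ≠ v → G.1.Adj u v) ∧ (∀ u ∉ K, ∀ v ∉ K, ¬ G.1.Adj u v))
    (Φ : Omega d ≃ Bip.Mat r c) (hΦ : ∀ G u v, (Φ G).1 u v = decide (G.1.Adj u.1 v.1))
    (x y : Bip.Mat r c) (h : Bip.Flip x y) :
    1 ≤ ((n.choose 4 : ℝ) * 2 ^ 20) * jump d (Φ.symm x) (Φ.symm y) := by
  obtain ⟨a, b, j, l, hab, hjl, haj, hbl, hal, hbj, hy⟩ := h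
  have hRC : ∀ (u : {v // v ∉ K}) (v : {v // v ∈ K}), u.1 ≠ v.1 := fun u v h => u.2 (h ▸ v.2)
  have hA : ∀ (z : Bip.Mat r c) (u : {v // v ∉ K}) (v : {v // v ∈ K}), (Φ.symm z).1.Adj u.1 v.1 ↔ z.1 u v = true := by
    intro z u v
    have := hΦ (Φ.symm z) u v
    rw [Φ.apply_symm_apply] at this
    rw [this, decide_eq_true_eq]
  refine jump_ge_of_switch _ _ a.1 b.1 j.1 l.1 (fun h => hab (Subtype.ext h)) (hRC a j) (hRC a l)
    (hRC b j) (hRC b l) (fun h => hjl (Subtype.ext h)) ((hA _ _ _).2 haj) ((hA _ _ _).2 hbl)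
    (by rw [hA]; simp [hal]) (by rw [hA]; simp [hbj]) ?_
  have main : ∀ (u : {v // v ∉ K}) (v : {v // v ∈ K}), (Φ.symm y).1.Adj u.1 v.1 ↔
      ((Φ.symm x).1.Adj u.1 v.1 ∧ ¬ (s(u.1, v.1) = s(a.1, j.1) ∨ s(u.1, v.1) = s(b.1, l.1))) ∨
        s(u.1, v.1) = s(a.1, l.1) ∨ s(u.1, v.1) = s(b.1, j.1) := by
    intro u v
    have es : ∀ (p : {v // v ∉ K}) (q : {v // v ∈ K}), s(u.1, v.1) = s(p.1, q.1) ↔ (u = p ∧ v = q) := by
      intro p q
      rw [Sym2.eq_iff]
      constructor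
      · rintro (⟨h1, h2⟩ | ⟨h1, h2⟩)
        · exact ⟨Subtype.ext h1, Subtype.ext h2⟩
        · exact absurd h1 (hRC u q)
      · rintro ⟨rfl, rfl⟩; exact Or.inl ⟨rfl, rfl⟩
    rw [hA, hA, hy, es, es, es, es]
    by_cases h : (u = a ∨ u = b) ∧ (v = j ∨ v = l)
    · rcases h with ⟨rfl | rfl, rfl | rfl⟩ <;>
        simp [hab, hab.symm, hjl, hjl.symm, haj, hbl, hal, hbj]
    · rw [if_neg h]
      constructor
      · intro hx
        refine Or.inl ⟨hx, ?_⟩
        rintro (⟨rfl, rfl⟩ | ⟨rfl, rfl⟩) <;> simp at h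
      · rintro (⟨hx, -⟩ | ⟨rfl, rfl⟩ | ⟨rfl, rfl⟩)
        · exact hx
        · simp at h
        · simp at h
  intro u v
  by_cases hu : u ∈ K <;> by_cases hv : v ∈ K
  · constructor
    · intro h
      refine Or.inl ⟨(hall (Φ.symm x)).1 u hu v hv h.ne, ?_⟩
      rintro (h' | h') <;> rw [Sym2.eq_iff] at h' <;>
        rcases h' with ⟨h1, h2⟩ | ⟨h1, h2⟩
      · exact a.2 (h1 ▸ hu)
      · exact a.2 (h2 ▸ hv)
      · exact b.2 (h1 ▸ hu)
      · exact b.2 (h2 ▸ hv)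
    · rintro (⟨h, -⟩ | h' | h')
      · exact (hall (Φ.symm y)).1 u hu v hv h.ne
      · rw [Sym2.eq_iff] at h'; rcases h' with ⟨h1, h2⟩ | ⟨h1, h2⟩
        · exact absurd (h1 ▸ hu) a.2
        · exact absurd (h2 ▸ hv) a.2
      · rw [Sym2.eq_iff] at h'; rcases h' with ⟨h1, h2⟩ | ⟨h1, h2⟩
        · exact absurd (h1 ▸ hu) b.2
        · exact absurd (h2 ▸ hv) b.2
  · rw [SimpleGraph.adj_comm, (Φ.symm x).1.adj_comm u v, Sym2.eq_swap]
    exact main ⟨v, hv⟩ ⟨u, hu⟩
  · exact main ⟨u, hu⟩ ⟨v, hv⟩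
  · constructor
    · intro h; exact absurd h ((hall (Φ.symm y)).2 u hu v hv)
    · rintro (⟨h, -⟩ | h' | h')
      · exact absurd h ((hall (Φ.symm x)).2 u hu v hv)
      · rw [Sym2.eq_iff] at h'; rcases h' with ⟨h1, h2⟩ | ⟨h1, h2⟩
        · exact absurd (h2 ▸ l.2) hv
        · exact absurd (h1 ▸ l.2) hu
      · rw [Sym2.eq_iff] at h'; rcases h' with ⟨h1, h2⟩ | ⟨h1, h2⟩
        · exact absurd (h2 ▸ j.2) hv
        · exact absurd (h1 ▸ j.2) hu

theorem split_poincare {d : Fin n → ℕ} (hd : IsSplitSequence d) (f : Omega d → ℝ)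
    (h0 : ∑ G, f G = 0) :
    4 * ip f f ≤ ((n ^ 4 * (n.choose 4 * 2 ^ 20) : ℕ) : ℝ) * form d f := by
  obtain ⟨G₀, K', hKc, hKi⟩ := hd
  set K : Finset (Fin n) := K'.toFinset with hKdef
  have hK : ∀ u ∈ K, ∀ v ∈ K, u ≠ v → G₀.1.Adj u v := fun u hu v hv hne =>
    hKc (by simpa [K] using hu) (by simpa [K] using hv) hne
  have hI : ∀ u ∉ K, ∀ v ∉ K, ¬ G₀.1.Adj u v := by
    intro u hu v hv hA
    exact hKi (show u ∈ K'ᶜ by simpa [K] using hu) (show v ∈ K'ᶜ by simpa [K] using hv) hA.ne hA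
  have hall := split_all hK hI
  obtain ⟨Φ, hΦ⟩ := split_equiv G₀ K hall
  set g := fun x => f (Φ.symm x) with hg
  have hg0 : ∑ x, g x = 0 := by rw [← h0]; exact Φ.symm.sum_comp f
  have hb := Bip.poincare_flip g hg0
  have hip : ip g g = ip f f := Φ.symm.sum_comp (fun G => f G * f G)
  have hff : Bip.flipForm g ≤ ((n.choose 4 : ℝ) * 2 ^ 20) * form d f := by
    rw [form, Finset.mul_sum, ← Φ.symm.sum_comp]
    refine Finset.sum_le_sum fun x _ => ?_
    rw [Finset.mul_sum, ← Φ.symm.sum_comp]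
    refine Finset.sum_le_sum fun y _ => ?_
    split_ifs with h
    · rw [← mul_assoc]; exact le_mul_of_one_le_left (sq_nonneg _) (split_flip hall Φ hΦ x y h)
    · exact mul_nonneg (by positivity) (mul_nonneg (jump_nonneg d _ _) (sq_nonneg _))
  have hR : (Fintype.card {v // v ∉ K} : ℝ) ≤ n := by
    exact_mod_cast (Fintype.card_subtype_le _).trans (le_of_eq (Fintype.card_fin n))
  have hC : (Fintype.card {v // v ∈ K} : ℝ) ≤ n := by
    exact_mod_cast (Fintype.card_subtype_le _).trans (le_of_eq (Fintype.card_fin n))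
  have hffnn : 0 ≤ Bip.flipForm g := Finset.sum_nonneg fun x _ => Finset.sum_nonneg fun y _ => by
    split_ifs <;> positivity
  rw [← hip]
  refine hb.trans ((mul_le_mul (mul_le_mul (pow_le_pow_left₀ (by positivity) hR 2)
    (pow_le_pow_left₀ (by positivity) hC 2) (by positivity) (by positivity)) hff hffnn (by positivity)).trans
    (le_of_eq ?_))
  push_cast; ring

end Vale.Agent.P335
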