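import Mathlib

/-! The slice `powersetCard s` of a finite set: the spectral gap of its Johnson graph, and the
second-moment inequality for conditioning on a separated pair of points. -/

namespace Vale.Agent.P335

open Finset

namespace Slice

variable {U : Type*} [Fintype U] [DecidableEq U]

/-- The subsets of size `s`. -/
def sl (U : Type*) [Fintype U] (s : ℕ) : Finset (Finset U) := (univ : Finset U).powersetCard s

/-- Replace the element `c` by `d`. -/
def mv (S : Finset U) (c d : U) : Finset U := insert d (S.erase c)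

/-- The Dirichlet form of the Johnson graph (each edge in both directions). -/
def dir (s : ℕ) (g : Finset U → ℝ) : ℝ :=
  ∑ S ∈ sl U s, ∑ c ∈ S, ∑ d ∈ Sᶜ, (g S - g (mv S c d)) ^ 2

/-- The adjacency form of the Johnson graph. -/
def adj (s : ℕ) (f g : Finset U → ℝ) : ℝ :=
  ∑ S ∈ sl U s, ∑ c ∈ S, ∑ d ∈ Sᶜ, f S * g (mv S c d)

/-- The square norm on the slice. -/
def nsq (s : ℕ) (g : Finset U → ℝ) : ℝ := ∑ S ∈ sl U s, g S ^ 2

lemma mem_sl {s : ℕ} {S : Finset U} : S ∈ sl U s ↔ S.card = s := by simp [sl]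

lemma mv_mem {s : ℕ} {S : Finset U} {c d : U} (hS : S ∈ sl U s) (hc : c ∈ S) (hd : d ∉ S) :
    mv S c d ∈ sl U s ∧ d ∈ mv S c d ∧ c ∉ mv S c d ∧ mv (mv S c d) d c = S := by
  have hcd : c ≠ d := fun h => hd (h ▸ hc)
  refine ⟨?_, by simp [mv], by simp [mv, hcd], ?_⟩
  · rw [mem_sl, mv, Finset.card_insert_of_notMem (by simp [hd]), Finset.card_erase_add_one hc]
    exact mem_sl.1 hS
  · simp [mv, hd, Finset.insert_erase hc]

lemma sum_edge_symm (s : ℕ) (F : Finset U → U → U → ℝ) :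
    ∑ S ∈ sl U s, ∑ c ∈ S, ∑ d ∈ Sᶜ, F S c d =
      ∑ S ∈ sl U s, ∑ c ∈ S, ∑ d ∈ Sᶜ, F (mv S c d) d c := by
  simp only [← Finset.sum_product', Finset.sum_sigma']
  refine Finset.sum_nbij' (fun x => ⟨mv x.1 x.2.1 x.2.2, (x.2.2, x.2.1)⟩)
    (fun x => ⟨mv x.1 x.2.1 x.2.2, (x.2.2, x.2.1)⟩) ?_ ?_ ?_ ?_ ?_ <;>
  · rintro ⟨S, c, d⟩ h
    simp only [Finset.mem_sigma, Finset.mem_product, Finset.mem_compl] at h ⊢
    obtain ⟨h1, h2, h3, h4⟩ := mv_mem h.1 h.2.1 h.2.2
    first
      | exact ⟨h1, h2, h3⟩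
      | simp [h4]

lemma sum_insert_pair (t : ℕ) (F : Finset U → U → ℝ) :
    ∑ S ∈ sl U (t + 1), ∑ a ∈ S, F (S.erase a) a = ∑ T ∈ sl U t, ∑ a ∈ Tᶜ, F T a := by
  simp only [Finset.sum_sigma']
  refine Finset.sum_nbij' (fun x => ⟨x.1.erase x.2, x.2⟩) (fun x => ⟨insert x.2 x.1, x.2⟩)
    ?_ ?_ ?_ ?_ ?_ <;>
  · rintro ⟨S, a⟩ h
    simp only [Finset.mem_sigma, mem_sl, Finset.mem_compl] at h ⊢
    first
      | done
      | (have := Finset.card_erase_add_one h.2; exact ⟨by omega, by simp⟩)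
      | (rw [Finset.card_insert_of_notMem h.2]; exact ⟨by omega, by simp⟩)
      | simp [Finset.insert_erase, h.2]

/-- The sum over all sets obtained by adding one point. -/
def down (f : Finset U → ℝ) (T : Finset U) : ℝ := ∑ a ∈ Tᶜ, f (insert a T)

/-- The sum over all sets obtained by removing one point. -/
def up (g : Finset U → ℝ) (S : Finset U) : ℝ := ∑ a ∈ S, g (S.erase a)

lemma card_compl_sl {s : ℕ} {S : Finset U} (h : S ∈ sl U s) :
    ((Sᶜ).card : ℝ) = (Fintype.card U : ℝ) - s := by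
  have h1 := Finset.card_add_card_compl S
  rw [mem_sl.1 h] at h1
  have : (s : ℝ) + ((Sᶜ).card : ℝ) = (Fintype.card U : ℝ) := by exact_mod_cast h1
  linarith

lemma dir_eq (s : ℕ) (g : Finset U → ℝ) :
    dir s g = 2 * ((s : ℝ) * ((Fintype.card U : ℝ) - s)) * nsq s g - 2 * adj s g g := by
  have h1 : ∑ S ∈ sl U s, ∑ c ∈ S, ∑ d ∈ Sᶜ, g S ^ 2
      = ((s : ℝ) * ((Fintype.card U : ℝ) - s)) * nsq s g := by
    rw [nsq, Finset.mul_sum]
    refine Finset.sum_congr rfl fun S hS => ?_
    simp only [Finset.sum_const, nsmul_eq_mul]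
    rw [card_compl_sl hS, mem_sl.1 hS]; ring
  have h2 := sum_edge_symm s (fun S _ _ => g S ^ 2)
  have h3 : dir s g = ∑ S ∈ sl U s, ∑ c ∈ S, ∑ d ∈ Sᶜ, g S ^ 2 - 2 * adj s g g
      + ∑ S ∈ sl U s, ∑ c ∈ S, ∑ d ∈ Sᶜ, g (mv S c d) ^ 2 := by
    simp only [dir, adj, Finset.mul_sum, ← Finset.sum_sub_distrib, ← Finset.sum_add_distrib]
    exact Finset.sum_congr rfl fun S _ => Finset.sum_congr rfl fun c _ =>
      Finset.sum_congr rfl fun d _ => by ring
  rw [h3, ← h2, h1]; ring

lemma down_adjoint (t : ℕ) (f g : Finset U → ℝ) :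
    ∑ T ∈ sl U t, g T * down f T = ∑ S ∈ sl U (t + 1), f S * up g S := by
  have h := sum_insert_pair t (fun T a => g T * f (insert a T))
  simp only [down, up, Finset.mul_sum]
  rw [← h]
  exact Finset.sum_congr rfl fun S _ => Finset.sum_congr rfl fun a ha => by
    rw [Finset.insert_erase ha]; ring

lemma nsq_down (t : ℕ) (f : Finset U → ℝ) :
    nsq t (down f) = ((t : ℝ) + 1) * nsq (t + 1) f + adj (t + 1) f f := by
  have e : nsq t (down f) = ∑ T ∈ sl U t, down f T * down f T := by simp [nsq, sq]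
  rw [e, down_adjoint, nsq, adj, Finset.mul_sum, ← Finset.sum_add_distrib]
  refine Finset.sum_congr rfl fun S hS => ?_
  simp only [up, down, Finset.mul_sum]
  have : ∀ a ∈ S, ∑ b ∈ (S.erase a)ᶜ, f S * f (insert b (S.erase a))
      = f S ^ 2 + ∑ b ∈ Sᶜ, f S * f (mv S a b) := by
    intro a ha
    rw [Finset.compl_erase, Finset.sum_insert (by simp [ha]), Finset.insert_erase ha, sq]
    rfl
  rw [Finset.sum_congr rfl this, Finset.sum_add_distrib, Finset.sum_const, mem_sl.1 hS, nsmul_eq_mul]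
  push_cast; ring

lemma nsq_up (t : ℕ) (g : Finset U → ℝ) :
    nsq (t + 1) (up g) = ((Fintype.card U : ℝ) - t) * nsq t g + adj t g g := by
  have e : nsq (t + 1) (up g) = ∑ S ∈ sl U (t + 1), up g S * up g S := by simp [nsq, sq]
  rw [e, ← down_adjoint, nsq, adj, Finset.mul_sum, ← Finset.sum_add_distrib]
  refine Finset.sum_congr rfl fun T hT => ?_
  simp only [up, down, Finset.mul_sum]
  have : ∀ a ∈ Tᶜ, ∑ c ∈ insert a T, g T * g ((insert a T).erase c)
      = g T ^ 2 + ∑ c ∈ T, g T * g (mv T c a) := by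
    intro a ha
    rw [Finset.mem_compl] at ha
    rw [Finset.sum_insert ha, Finset.erase_insert ha, sq]
    congr 1
    refine Finset.sum_congr rfl fun c hc => ?_
    rw [Finset.erase_insert_of_ne (fun h : a = c => ha (h ▸ hc))]; rfl
  rw [Finset.sum_congr rfl this, Finset.sum_add_distrib, Finset.sum_const, nsmul_eq_mul,
    card_compl_sl hT, Finset.sum_comm]

/-- The spectral gap of the Johnson graph is the number of points. -/
theorem gap : ∀ (s : ℕ) (f : Finset U → ℝ), ∑ S ∈ sl U s, f S = 0 →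
    2 * (Fintype.card U : ℝ) * nsq s f ≤ dir s f := by
  intro s
  induction s with
  | zero =>
    intro f hf
    simp only [sl, Finset.powersetCard_zero, Finset.sum_singleton] at hf
    simp [nsq, dir, sl, hf]
  | succ t ih =>
    intro f hf
    set k := (Fintype.card U : ℝ)
    have hg : ∑ T ∈ sl U t, down f T = 0 := by
      have := down_adjoint t f (fun _ => 1)
      simp only [one_mul, up, Finset.sum_const, nsmul_one] at this
      rw [this, Finset.sum_congr rfl (fun S hS => by rw [mem_sl.1 hS]), ← Finset.sum_mul, hf, zero_mul]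
    set c := ((t : ℝ) + 1) * (k - t) - k with hc
    have hup : nsq (t + 1) (up (down f)) ≤ c * nsq t (down f) := by
      have h1 := dir_eq t (down f)
      rw [nsq_up, hc]; have h2 := ih _ hg; nlinarith
    have hcs : nsq t (down f) ^ 2 ≤ nsq (t + 1) f * (c * nsq t (down f)) := by
      have e : nsq t (down f) = ∑ S ∈ sl U (t + 1), f S * up (down f) S := by
        rw [← down_adjoint]; simp [nsq, sq]
      have h0 : 0 ≤ nsq (t + 1) f := Finset.sum_nonneg fun _ _ => sq_nonneg _
      refine le_trans ?_ (mul_le_mul_of_nonneg_left hup h0)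
      rw [e]; exact Finset.sum_mul_sq_le_sq_mul_sq _ _ _
    have hD : nsq t (down f) ≤ c * nsq (t + 1) f := by
      have h0 : 0 ≤ nsq t (down f) := Finset.sum_nonneg fun _ _ => sq_nonneg _
      rcases eq_or_lt_of_le h0 with h | h
      · rw [← h]
        by_cases ht : t + 1 ≤ Fintype.card U
        · have h1 : (t : ℝ) + 1 ≤ k := by simp only [k]; exact_mod_cast ht
          have h2 : 0 ≤ c := by
            have : c = (t : ℝ) * (k - (t + 1)) := by rw [hc]; ring
            rw [this]; exact mul_nonneg (Nat.cast_nonneg _) (by linarith)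
          exact mul_nonneg h2 (Finset.sum_nonneg fun _ _ => sq_nonneg _)
        · have : sl U (t + 1) = ∅ := Finset.powersetCard_eq_empty.2 (by simpa using ht)
          simp [nsq, this]
      · nlinarith
    have h1 := dir_eq (t + 1) f
    rw [nsq_down] at hD
    push_cast at h1
    rw [hc] at hD
    nlinarith

/-- The indicator that `S` separates `c` and `d`. -/
def sep (S : Finset U) (c d : U) : Prop := ¬ (c ∈ S ↔ d ∈ S)

instance (S : Finset U) (c d : U) : Decidable (sep S c d) := inferInstanceAs (Decidable (¬ _))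

/-- The signs of a set. -/
def sg (S : Finset U) (e : U) : ℝ := if e ∈ S then 1 else -1

lemma sg_mul (S : Finset U) (c d : U) : sg S c * sg S d = 1 - 2 * (if sep S c d then 1 else 0) := by
  by_cases hc : c ∈ S <;> by_cases hd : d ∈ S <;> simp [sg, sep, hc, hd] <;> norm_num

lemma exists_perm4 {c d e f c' d' e' f' : U}
    (h : c ≠ d ∧ c ≠ e ∧ c ≠ f ∧ d ≠ e ∧ d ≠ f ∧ e ≠ f)
    (h' : c' ≠ d' ∧ c' ≠ e' ∧ c' ≠ f' ∧ d' ≠ e' ∧ d' ≠ f' ∧ e' ≠ f') :
    ∃ τ : Equiv.Perm U, τ c = c' ∧ τ d = d' ∧ τ e = e' ∧ τ f = f' := by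
  obtain ⟨hcd, hce, hcf, hde, hdf, hef⟩ := h
  obtain ⟨hcd', hce', hcf', hde', hdf', hef'⟩ := h'
  set t1 := Equiv.swap c c'
  have a1 : t1 c = c' := Equiv.swap_apply_left _ _
  set t2 := Equiv.swap (t1 d) d' * t1
  have b1 : t2 c = c' := by
    simp only [t2, Equiv.Perm.mul_apply, a1]
    exact Equiv.swap_apply_of_ne_of_ne (fun x => hcd (t1.injective (a1.trans x))) hcd'
  have b2 : t2 d = d' := by simp [t2]
  set t3 := Equiv.swap (t2 e) e' * t2
  have c1 : t3 c = c' := by
    simp only [t3, Equiv.Perm.mul_apply, b1]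
    exact Equiv.swap_apply_of_ne_of_ne (fun x => hce (t2.injective (b1.trans x))) hce'
  have c2 : t3 d = d' := by
    simp only [t3, Equiv.Perm.mul_apply, b2]
    exact Equiv.swap_apply_of_ne_of_ne (fun x => hde (t2.injective (b2.trans x))) hde'
  have c3 : t3 e = e' := by simp [t3]
  refine ⟨Equiv.swap (t3 f) f' * t3, ?_, ?_, ?_, by simp⟩
  · simp only [Equiv.Perm.mul_apply, c1]
    exact Equiv.swap_apply_of_ne_of_ne (fun x => hcf (t3.injective (c1.trans x))) hcf'
  · simp only [Equiv.Perm.mul_apply, c2]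
    exact Equiv.swap_apply_of_ne_of_ne (fun x => hdf (t3.injective (c2.trans x))) hdf'
  · simp only [Equiv.Perm.mul_apply, c3]
    exact Equiv.swap_apply_of_ne_of_ne (fun x => hef (t3.injective (c3.trans x))) hef'

lemma exists_perm2 {c d c' d' : U} (h : c ≠ d) (h' : c' ≠ d') :
    ∃ τ : Equiv.Perm U, τ c = c' ∧ τ d = d' := by
  have a1 : Equiv.swap c c' c = c' := Equiv.swap_apply_left _ _
  refine ⟨Equiv.swap (Equiv.swap c c' d) d' * Equiv.swap c c', ?_, by simp⟩
  simp only [Equiv.Perm.mul_apply, a1]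
  exact Equiv.swap_apply_of_ne_of_ne (fun x => h ((Equiv.swap c c').injective (a1.trans x))) h'

lemma sum_map_perm (s : ℕ) (τ : Equiv.Perm U) (F : Finset U → ℝ) :
    ∑ S ∈ sl U s, F (S.map τ.toEmbedding) = ∑ S ∈ sl U s, F S := by
  refine Finset.sum_nbij' (fun S => S.map τ.toEmbedding) (fun S => S.map τ.symm.toEmbedding)
    ?_ ?_ ?_ ?_ ?_ <;> intro S hS
  · simpa [mem_sl] using hS
  · simpa [mem_sl] using hS
  · simp [Finset.map_map]
  · simp [Finset.map_map]
  · rfl

/-- The number of sets in the slice containing `c` and avoiding `d`. -/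
def n1 (s : ℕ) (c d : U) : ℝ := ∑ S ∈ sl U s, if c ∈ S ∧ d ∉ S then 1 else 0

/-- The number of sets containing `c`, `e` and avoiding `d`, `f`. -/
def n2 (s : ℕ) (c d e f : U) : ℝ :=
  ∑ S ∈ sl U s, if c ∈ S ∧ d ∉ S ∧ e ∈ S ∧ f ∉ S then 1 else 0

lemma n1_perm (s : ℕ) {c d c' d' : U} (h : c ≠ d) (h' : c' ≠ d') : n1 s c d = n1 s c' d' := by
  obtain ⟨τ, h1, h2⟩ := exists_perm2 h h'
  rw [← h1, ← h2]
  unfold n1
  rw [← sum_map_perm s τ (fun S => if τ c ∈ S ∧ τ d ∉ S then (1 : ℝ) else 0)]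
  refine Finset.sum_congr rfl fun S _ => ?_
  simp

lemma sum_sep (s : ℕ) {c d : U} (h : c ≠ d) :
    (∑ S ∈ sl U s, if sep S c d then (1 : ℝ) else 0) = 2 * n1 s c d := by
  have : n1 s d c = n1 s c d := n1_perm s h.symm h
  rw [two_mul]; nth_rewrite 2 [← this]
  unfold n1
  rw [← Finset.sum_add_distrib]
  refine Finset.sum_congr rfl fun S _ => ?_
  by_cases hc : c ∈ S <;> by_cases hd : d ∈ S <;> simp [sep, hc, hd]

lemma exists_n2 (s : ℕ) : ∃ ν : ℝ, ∀ c d e f : U,
    c ≠ d ∧ c ≠ e ∧ c ≠ f ∧ d ≠ e ∧ d ≠ f ∧ e ≠ f → n2 s c d e f = ν := by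
  by_cases h : ∃ c d e f : U, c ≠ d ∧ c ≠ e ∧ c ≠ f ∧ d ≠ e ∧ d ≠ f ∧ e ≠ f
  · obtain ⟨c₀, d₀, e₀, f₀, h₀⟩ := h
    refine ⟨n2 s c₀ d₀ e₀ f₀, fun c d e f hh => ?_⟩
    obtain ⟨τ, h1, h2, h3, h4⟩ := exists_perm4 h₀ hh
    rw [← h1, ← h2, ← h3, ← h4]
    unfold n2
    rw [← sum_map_perm s τ
      (fun S => if τ c₀ ∈ S ∧ τ d₀ ∉ S ∧ τ e₀ ∈ S ∧ τ f₀ ∉ S then (1 : ℝ) else 0)]
    refine Finset.sum_congr rfl fun S _ => ?_
    simp
  · exact ⟨0, fun c d e f hh => absurd ⟨c, d, e, f, hh⟩ h⟩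

lemma pair_moment (s : ℕ) (ν : ℝ) (hν : ∀ c d e f : U,
      c ≠ d ∧ c ≠ e ∧ c ≠ f ∧ d ≠ e ∧ d ≠ f ∧ e ≠ f → n2 s c d e f = ν)
    {c d : U} (hcd : c ≠ d) (R : Finset U) (hR : ∀ e ∈ R, e ≠ c ∧ e ≠ d) (θ : U → ℝ) :
    (∑ S ∈ sl U s, if c ∈ S ∧ d ∉ S then (∑ e ∈ R, θ e * sg S e) ^ 2 else 0)
      = 4 * ν * ∑ e ∈ R, θ e ^ 2 + (n1 s c d - 4 * ν) * (∑ e ∈ R, θ e) ^ 2 := by
  have hM : ∀ e ∈ R, ∀ f ∈ R, (∑ S ∈ sl U s, if c ∈ S ∧ d ∉ S then sg S e * sg S f else 0)
      = (n1 s c d - 4 * ν) + (if e = f then 4 * ν else 0) := by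
    intro e he f hf
    by_cases hef : e = f
    · subst hef
      rw [if_pos rfl, sub_add_cancel, n1]
      exact Finset.sum_congr rfl fun S _ => by by_cases h : e ∈ S <;> simp [sg, h]
    · obtain ⟨e1, e2⟩ := hR e he; obtain ⟨f1, f2⟩ := hR f hf
      rw [if_neg hef, add_zero]
      have k1 := hν c d e f ⟨hcd, e1.symm, f1.symm, e2.symm, f2.symm, hef⟩
      have k2 := hν c d f e ⟨hcd, f1.symm, e1.symm, f2.symm, e2.symm, Ne.symm hef⟩
      have : n1 s c d - 4 * ν = n1 s c d - 2 * (n2 s c d e f + n2 s c d f e) := by rw [k1, k2]; ring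
      rw [this, n1, n2, n2, ← Finset.sum_add_distrib, Finset.mul_sum, ← Finset.sum_sub_distrib]
      refine Finset.sum_congr rfl fun S _ => ?_
      by_cases a : c ∈ S <;> by_cases b : d ∈ S <;> by_cases p : e ∈ S <;> by_cases q : f ∈ S <;>
        simp [sg, a, b, p, q] <;> norm_num
  calc (∑ S ∈ sl U s, if c ∈ S ∧ d ∉ S then (∑ e ∈ R, θ e * sg S e) ^ 2 else 0)
      = ∑ S ∈ sl U s, ∑ e ∈ R, ∑ f ∈ R,
          θ e * θ f * (if c ∈ S ∧ d ∉ S then sg S e * sg S f else 0) := by
        refine Finset.sum_congr rfl fun S _ => ?_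
        split_ifs
        · rw [sq, Finset.sum_mul_sum]
          exact Finset.sum_congr rfl fun e _ => Finset.sum_congr rfl fun f _ => by ring
        · simp
    _ = ∑ e ∈ R, ∑ f ∈ R, θ e * θ f * ((n1 s c d - 4 * ν) + (if e = f then 4 * ν else 0)) := by
        rw [Finset.sum_comm]
        refine Finset.sum_congr rfl fun e he => ?_
        rw [Finset.sum_comm]
        refine Finset.sum_congr rfl fun f hf => ?_
        rw [← Finset.mul_sum, hM e he f hf]
    _ = _ := by
        simp only [mul_add, Finset.sum_add_distrib, mul_ite, mul_zero, Finset.sum_ite_eq]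
        rw [sq (∑ e ∈ R, θ e), Finset.sum_mul_sum, Finset.mul_sum, Finset.mul_sum, add_comm]
        congr 1
        · exact Finset.sum_congr rfl fun e he => by rw [if_pos he]; ring
        · refine Finset.sum_congr rfl fun e _ => ?_
          rw [Finset.mul_sum]
          exact Finset.sum_congr rfl fun f _ => by ring

/-- For a symmetric matrix with zero diagonal the centred row sums have small norm. -/
lemma row_var (H : U → U → ℝ) (hs : ∀ c d, H c d = H d c) (h0 : ∀ c, H c c = 0)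
    (hk : 2 ≤ Fintype.card U) :
    ∑ c, ∑ d, ((∑ e, H c e) - ∑ e, H d e) ^ 2 ≤
      (Fintype.card U : ℝ) * ((Fintype.card U : ℝ) - 2) * ∑ c, ∑ d, H c d ^ 2 := by
  set k := (Fintype.card U : ℝ) with hkdef
  have hk2 : (2 : ℝ) ≤ k := by simp only [k]; exact_mod_cast hk
  set θ : U → ℝ := fun c => (∑ e, H c e) - (∑ c, ∑ e, H c e) / k with hθ
  have hsum : ∑ c, θ c = 0 := by
    simp only [hθ, Finset.sum_sub_distrib, Finset.sum_const, Finset.card_univ, nsmul_eq_mul]
    rw [← hkdef]; field_simp; ring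
  set Q := ∑ c, θ c ^ 2 with hQ
  have e1 : ∑ c, ∑ d, ((∑ e, H c e) - ∑ e, H d e) ^ 2 = 2 * k * Q := by
    have : ∀ c d, ((∑ e, H c e) - ∑ e, H d e) ^ 2 = θ c ^ 2 + θ d ^ 2 - 2 * (θ c * θ d) := by
      intro c d; simp only [hθ]; ring
    simp only [this, Finset.sum_add_distrib, Finset.sum_sub_distrib, ← Finset.mul_sum,
      Finset.sum_const, Finset.card_univ, nsmul_eq_mul, ← Finset.sum_mul, hsum]
    rw [← hkdef]; ring
  have e2 : ∑ c, ∑ d, H c d * (if c = d then 0 else θ c + θ d) = 2 * Q := by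
    have : ∀ c d, H c d * (if c = d then 0 else θ c + θ d) = θ c * H c d + θ d * H d c := by
      intro c d; split_ifs with h
      · subst h; simp [h0]
      · rw [hs d c]; ring
    simp only [this, Finset.sum_add_distrib]
    rw [Finset.sum_comm (f := fun c d => θ d * H d c)]
    simp only [← Finset.mul_sum]
    have : ∑ c, θ c * ∑ e, H c e = Q + (∑ c, θ c) * ((∑ c, ∑ e, H c e) / k) := by
      rw [hQ, Finset.sum_mul, ← Finset.sum_add_distrib]
      exact Finset.sum_congr rfl fun c _ => by simp only [hθ]; ring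
    rw [this, hsum]; ring
  have e3 : ∑ c, ∑ d, (if c = d then 0 else θ c + θ d) ^ 2 = 2 * (k - 2) * Q := by
    have : ∀ c d, (if c = d then 0 else θ c + θ d) ^ 2 =
        θ c ^ 2 + θ d ^ 2 + 2 * (θ c * θ d) - (if c = d then 4 * θ c ^ 2 else 0) := by
      intro c d; split_ifs with h
      · subst h; ring
      · ring
    simp only [this, Finset.sum_add_distrib, Finset.sum_sub_distrib, ← Finset.mul_sum,
      Finset.sum_const, Finset.card_univ, nsmul_eq_mul, ← Finset.sum_mul, hsum, Finset.sum_ite_eq,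
      Finset.mem_univ, if_true]
    rw [← hkdef]; ring
  have hcs : (∑ c, ∑ d, H c d * (if c = d then 0 else θ c + θ d)) ^ 2 ≤
      (∑ c, ∑ d, H c d ^ 2) * ∑ c, ∑ d, (if c = d then 0 else θ c + θ d) ^ 2 := by
    simp only [← Fintype.sum_prod_type']
    exact Finset.sum_mul_sq_le_sq_mul_sq _ _ _
  rw [e2, e3] at hcs
  rw [e1]
  have hQ0 : 0 ≤ Q := Finset.sum_nonneg fun _ _ => sq_nonneg _
  have hH0 : 0 ≤ ∑ c, ∑ d, H c d ^ 2 :=
    Finset.sum_nonneg fun _ _ => Finset.sum_nonneg fun _ _ => sq_nonneg _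
  rcases eq_or_lt_of_le hQ0 with h | h
  · rw [← h, mul_zero]; exact mul_nonneg (mul_nonneg (by linarith) (by linarith)) hH0
  · have : 2 * Q ≤ (∑ c, ∑ d, H c d ^ 2) * (k - 2) := by nlinarith
    nlinarith

/-- The quadratic form of `H` in the signs. -/
def quad (H : U → U → ℝ) (S : Finset U) : ℝ := ∑ c, ∑ d, H c d * (sg S c * sg S d)

lemma quad_mv (H : U → U → ℝ) (hs : ∀ c d, H c d = H d c) (h0 : ∀ c, H c c = 0)
    {S : Finset U} {c d : U} (hc : c ∈ S) (hd : d ∉ S) :
    quad H S - quad H (mv S c d)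
      = 4 * ∑ e ∈ (univ.erase c).erase d, (H c e - H d e) * sg S e := by
  have hcd : c ≠ d := fun h => hd (h ▸ hc)
  set δ : U → ℝ := fun e => (if e = d then 2 else 0) - (if e = c then 2 else 0) with hδ
  have hsg : ∀ e, sg (mv S c d) e = sg S e + δ e := by
    intro e
    by_cases he : e = d
    · subst he; simp [sg, mv, hδ, hd, hcd.symm]; norm_num
    by_cases he' : e = c
    · subst he'; simp [sg, mv, hδ, hc, he]; norm_num
    simp [sg, mv, hδ, he, he']
  have hlin : ∀ F : U → ℝ, ∑ e, δ e * F e = 2 * F d - 2 * F c := by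
    intro F; simp [hδ, sub_mul, Finset.sum_sub_distrib]
  set y : U → ℝ := fun a => ∑ e, H a e * sg S e with hy
  have hq : quad H (mv S c d) = quad H S + 2 * (∑ a, δ a * y a)
      + ∑ a, δ a * ∑ e, δ e * H a e := by
    have : ∀ a e, H a e * (sg (mv S c d) a * sg (mv S c d) e) = H a e * (sg S a * sg S e)
        + δ a * (H a e * sg S e) + δ e * (H e a * sg S a) + δ a * (δ e * H a e) := by
      intro a e; rw [hsg, hsg, hs e a]; ring
    simp only [quad, this, Finset.sum_add_distrib]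
    rw [Finset.sum_comm (f := fun a e => δ e * (H e a * sg S a))]
    simp only [hy, Finset.mul_sum, two_mul, ← Finset.sum_add_distrib]
    exact Finset.sum_congr rfl fun a _ => Finset.sum_congr rfl fun e _ => by ring
  rw [hq, hlin, hlin, hlin, hlin]
  have hy' : y c - y d = (∑ e ∈ (univ.erase c).erase d, (H c e - H d e) * sg S e) - 2 * H c d := by
    have e1 : y c - y d = ∑ e, (H c e - H d e) * sg S e := by
      simp only [hy, sub_mul, Finset.sum_sub_distrib]
    rw [e1, ← Finset.add_sum_erase univ _ (Finset.mem_univ c),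
      ← Finset.add_sum_erase (univ.erase c) _ (Finset.mem_erase.2 ⟨hcd.symm, Finset.mem_univ d⟩)]
    simp [sg, hc, hd, h0, hs d c]; ring
  rw [h0 c, h0 d, hs d c]
  linarith

lemma dir_quad_le (s : ℕ) (H : U → U → ℝ) (hs : ∀ c d, H c d = H d c) (h0 : ∀ c, H c c = 0)
    (N : ℝ) (hN : ∀ c d : U, c ≠ d → n1 s c d = N) (hN0 : 0 ≤ N) (hk : 2 ≤ Fintype.card U) :
    dir s (quad H) ≤ 16 * (Fintype.card U : ℝ) ^ 2 * N * ∑ c, ∑ d, H c d ^ 2 := by
  set k := (Fintype.card U : ℝ) with hkdef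
  have hk2 : (2 : ℝ) ≤ k := by simp only [k]; exact_mod_cast hk
  obtain ⟨ν, hν⟩ := exists_n2 (U := U) s
  set W := ∑ c, ∑ d, H c d ^ 2 with hW
  have hW0 : 0 ≤ W := Finset.sum_nonneg fun _ _ => Finset.sum_nonneg fun _ _ => sq_nonneg _
  set T2 : U → U → ℝ := fun c d => ((∑ e, H c e) - ∑ e, H d e) ^ 2
  set Q2 : U → U → ℝ := fun c d => ∑ e ∈ (univ.erase c).erase d, (H c e - H d e) ^ 2
  have e1 : dir s (quad H) =
      16 * ∑ c, ∑ d, (4 * ν * Q2 c d + (N - 4 * ν) * T2 c d) * (if c = d then 0 else 1) := by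
    calc dir s (quad H)
        = ∑ S ∈ sl U s, ∑ c, ∑ d, if c ∈ S ∧ d ∉ S then
            16 * (∑ e ∈ (univ.erase c).erase d, (H c e - H d e) * sg S e) ^ 2 else 0 := by
          refine Finset.sum_congr rfl fun S _ => ?_
          rw [← Finset.sum_subset (Finset.subset_univ S) (fun c _ hc => by simp [hc])]
          refine Finset.sum_congr rfl fun c hc => ?_
          rw [← Finset.sum_subset (Finset.subset_univ Sᶜ)
            (fun d _ hd => by simp [Finset.mem_compl] at hd; simp [hd])]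
          refine Finset.sum_congr rfl fun d hd => ?_
          rw [Finset.mem_compl] at hd
          rw [if_pos ⟨hc, hd⟩, quad_mv H hs h0 hc hd]; ring
      _ = _ := by
          rw [Finset.sum_comm, Finset.mul_sum]
          refine Finset.sum_congr rfl fun c _ => ?_
          rw [Finset.sum_comm, Finset.mul_sum]
          refine Finset.sum_congr rfl fun d _ => ?_
          by_cases hcd : c = d
          · subst hcd; simp
          rw [if_neg hcd, mul_one]
          have hT : (∑ e, H c e) - ∑ e, H d e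
              = ∑ e ∈ (univ.erase c).erase d, (H c e - H d e) := by
            rw [← Finset.sum_sub_distrib, ← Finset.add_sum_erase univ _ (Finset.mem_univ c),
              ← Finset.add_sum_erase (univ.erase c) _
                (Finset.mem_erase.2 ⟨Ne.symm hcd, Finset.mem_univ d⟩)]
            simp [h0, hs d c]
          have hp := pair_moment s ν hν hcd ((univ.erase c).erase d)
            (fun e he => by simp at he; exact ⟨he.2, he.1⟩) (fun e => H c e - H d e)
          rw [hN c d hcd, ← hT] at hp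
          simp only [T2, Q2]
          rw [← hp, Finset.mul_sum]
          exact Finset.sum_congr rfl fun S _ => by split_ifs <;> simp
  have hT2 : ∑ c, ∑ d, T2 c d * (if c = d then 0 else 1) ≤ k * (k - 2) * W := by
    refine le_trans (le_of_eq ?_) (row_var H hs h0 hk)
    refine Finset.sum_congr rfl fun c _ => Finset.sum_congr rfl fun d _ => ?_
    by_cases hcd : c = d
    · subst hcd; simp
    · simp [hcd, T2]
  have hQ2 : ∑ c, ∑ d, Q2 c d * (if c = d then 0 else 1) ≤ 2 * k * W := by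
    calc ∑ c, ∑ d, Q2 c d * (if c = d then 0 else 1)
        ≤ ∑ c, ∑ d, ∑ e, (H c e - H d e) ^ 2 := by
          refine Finset.sum_le_sum fun c _ => Finset.sum_le_sum fun d _ => ?_
          have hle : Q2 c d ≤ ∑ e, (H c e - H d e) ^ 2 :=
            Finset.sum_le_sum_of_subset_of_nonneg (Finset.subset_univ _) fun _ _ _ => sq_nonneg _
          split_ifs
          · rw [mul_zero]; exact Finset.sum_nonneg fun _ _ => sq_nonneg _
          · rwa [mul_one]
      _ = 2 * k * W - 2 * ∑ e, (∑ c, H c e) ^ 2 := by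
          have h : ∀ c d e, (H c e - H d e) ^ 2 = H c e ^ 2 + H d e ^ 2 - 2 * (H c e * H d e) := by
            intro c d e; ring
          simp only [h, Finset.sum_add_distrib, Finset.sum_sub_distrib, ← Finset.mul_sum,
            Finset.sum_const, Finset.card_univ, nsmul_eq_mul]
          have : ∑ e, (∑ c, H c e) ^ 2 = ∑ c, ∑ d, ∑ e, H c e * H d e := by
            simp only [sq, Finset.sum_mul_sum]
            rw [Finset.sum_comm]
            exact Finset.sum_congr rfl fun c _ => Finset.sum_comm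
          rw [this, hW, hkdef]; ring
      _ ≤ _ := sub_le_self _ (by positivity)
  have hQ20 : 0 ≤ ∑ c, ∑ d, Q2 c d * (if c = d then 0 else 1) :=
    Finset.sum_nonneg fun _ _ => Finset.sum_nonneg fun _ _ =>
      mul_nonneg (Finset.sum_nonneg fun _ _ => sq_nonneg _) (by split_ifs <;> norm_num)
  have hT20 : 0 ≤ ∑ c, ∑ d, T2 c d * (if c = d then 0 else 1) :=
    Finset.sum_nonneg fun _ _ => Finset.sum_nonneg fun _ _ =>
      mul_nonneg (sq_nonneg _) (by split_ifs <;> norm_num)
  set TT := ∑ c, ∑ d, T2 c d * (if c = d then 0 else 1)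
  set QQ := ∑ c, ∑ d, Q2 c d * (if c = d then 0 else 1)
  have e2 : ∑ c, ∑ d, (4 * ν * Q2 c d + (N - 4 * ν) * T2 c d) * (if c = d then 0 else 1)
      = 4 * ν * QQ + (N - 4 * ν) * TT := by
    simp only [add_mul, Finset.sum_add_distrib, mul_assoc, ← Finset.mul_sum, QQ, TT]
  rw [e1, e2]
  suffices h : 4 * ν * QQ + (N - 4 * ν) * TT ≤ k ^ 2 * N * W by nlinarith
  by_cases hex : ∃ c d e f : U, c ≠ d ∧ c ≠ e ∧ c ≠ f ∧ d ≠ e ∧ d ≠ f ∧ e ≠ f
  · obtain ⟨c, d, e, f, hh⟩ := hex
    have hh' : c ≠ d ∧ c ≠ f ∧ c ≠ e ∧ d ≠ f ∧ d ≠ e ∧ f ≠ e :=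
      ⟨hh.1, hh.2.2.1, hh.2.1, hh.2.2.2.2.1, hh.2.2.2.1, hh.2.2.2.2.2.symm⟩
    have hν0 : 0 ≤ ν := by
      rw [← hν c d e f hh]
      exact Finset.sum_nonneg fun _ _ => by split_ifs <;> norm_num
    have hν1 : 2 * ν ≤ N := by
      have : n2 s c d e f + n2 s c d f e ≤ n1 s c d := by
        rw [n2, n2, n1, ← Finset.sum_add_distrib]
        refine Finset.sum_le_sum fun S _ => ?_
        by_cases a : c ∈ S <;> by_cases b : d ∈ S <;> by_cases p : e ∈ S <;> by_cases q : f ∈ S <;>
          simp [a, b, p, q]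
      rw [hν c d e f hh, hν c d f e hh', hN c d hh.1] at this
      linarith
    have hk4 : (4 : ℝ) ≤ k := by
      have : ({c, d, e, f} : Finset U).card = 4 :=
        Finset.card_eq_four.2 ⟨c, d, e, f, hh.1, hh.2.1, hh.2.2.1, hh.2.2.2.1, hh.2.2.2.2.1,
          hh.2.2.2.2.2, rfl⟩
      have h4 : 4 ≤ Fintype.card U := this ▸ Finset.card_le_univ _
      simp only [k]; exact_mod_cast h4
    rcases le_total (4 * ν) N with hh2 | hh2
    · have p1 : 4 * ν * QQ ≤ 4 * ν * (2 * k * W) := mul_le_mul_of_nonneg_left hQ2 (by linarith)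
      have p2 : (N - 4 * ν) * TT ≤ (N - 4 * ν) * (k * (k - 2) * W) :=
        mul_le_mul_of_nonneg_left hT2 (by linarith)
      have q1 : 0 ≤ (k * W) * (4 * ν * (k - 4)) :=
        mul_nonneg (mul_nonneg (by linarith) hW0) (mul_nonneg (by linarith) (by linarith))
      have q2 : 0 ≤ k * W * N := mul_nonneg (mul_nonneg (by linarith) hW0) hN0
      nlinarith
    · have p1 : 4 * ν * QQ ≤ (2 * N) * (2 * k * W) :=
        mul_le_mul (by linarith) hQ2 hQ20 (by linarith)
      have p2 : (N - 4 * ν) * TT ≤ 0 := mul_nonpos_of_nonpos_of_nonneg (by linarith) hT20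
      have q1 : 0 ≤ (k * W * N) * (k - 4) :=
        mul_nonneg (mul_nonneg (mul_nonneg (by linarith) hW0) hN0) (by linarith)
      nlinarith
  · -- no four distinct points: `pair_moment` holds with any constant, in particular `0`
    have hν' : ∀ c d e f : U, c ≠ d ∧ c ≠ e ∧ c ≠ f ∧ d ≠ e ∧ d ≠ f ∧ e ≠ f → n2 s c d e f = 0 :=
      fun c d e f hh => absurd ⟨c, d, e, f, hh⟩ hex
    have hQT : QQ = TT := by
      refine Finset.sum_congr rfl fun c _ => Finset.sum_congr rfl fun d _ => ?_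
      by_cases hcd : c = d
      · simp [hcd]
      congr 1
      simp only [Q2, T2]
      rw [← Finset.sum_sub_distrib, ← Finset.add_sum_erase univ _ (Finset.mem_univ c),
        ← Finset.add_sum_erase (univ.erase c) _
          (Finset.mem_erase.2 ⟨Ne.symm hcd, Finset.mem_univ d⟩)]
      have hsub : ∀ e ∈ (univ.erase c).erase d, ∀ f ∈ (univ.erase c).erase d, e = f := by
        intro e he f hf; by_contra hne
        simp at he hf
        exact hex ⟨c, d, e, f, hcd, Ne.symm he.2, Ne.symm hf.2, Ne.symm he.1, Ne.symm hf.1, hne⟩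
      rcases ((univ.erase c).erase d).eq_empty_or_nonempty with h | ⟨e₀, he₀⟩
      · simp [h, h0, hs d c]
      · rw [Finset.eq_singleton_iff_unique_mem.2 ⟨he₀, fun f hf => hsub f hf e₀ he₀⟩]
        simp [h0, hs d c]
    rw [hQT]
    have p : N * TT ≤ N * (k * (k - 2) * W) := mul_le_mul_of_nonneg_left hT2 hN0
    have q : 0 ≤ k * W * N := mul_nonneg (mul_nonneg (by linarith) hW0) hN0
    nlinarith

/-- For a function of mean zero on the slice, the weighted squares of its means on the events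
that `c` and `d` are separated add up to at most half of its Dirichlet form. -/
theorem sep_bound_centred (s : ℕ) (g : Finset U → ℝ) (hg : ∑ S ∈ sl U s, g S = 0) :
    ∑ c, ∑ d, (∑ S ∈ (sl U s).filter (fun S => sep S c d), g S) ^ 2
        / (((sl U s).filter (fun S => sep S c d)).card : ℝ) ≤ dir s g / 2 := by
  have hd0 : 0 ≤ dir s g := Finset.sum_nonneg fun _ _ => Finset.sum_nonneg fun _ _ =>
    Finset.sum_nonneg fun _ _ => sq_nonneg _
  by_cases hne : ∀ c d : U, c = d
  · refine le_trans (le_of_eq ?_) (by linarith : (0 : ℝ) ≤ dir s g / 2)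
    refine Finset.sum_eq_zero fun c _ => Finset.sum_eq_zero fun d _ => ?_
    simp [hne d c, sep]
  push Not at hne
  obtain ⟨a, b, hab⟩ := hne
  have hk : 2 ≤ Fintype.card U := Fintype.one_lt_card_iff.2 ⟨a, b, hab⟩
  have hk2 : (2 : ℝ) ≤ (Fintype.card U : ℝ) := by exact_mod_cast hk
  set k := (Fintype.card U : ℝ) with hkdef
  set H : U → U → ℝ := fun c d => ∑ S ∈ (sl U s).filter (fun S => sep S c d), g S with hH
  have hs : ∀ c d, H c d = H d c := by
    intro c d; simp only [hH]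
    refine Finset.sum_congr (Finset.filter_congr fun S _ => ?_) fun _ _ => rfl
    simp only [sep]; tauto
  have h0 : ∀ c, H c c = 0 := by intro c; simp [hH, sep]
  set N := n1 s a b
  have hN : ∀ c d : U, c ≠ d → n1 s c d = N := fun c d h => n1_perm s h hab
  have hN0 : 0 ≤ N := Finset.sum_nonneg fun _ _ => by split_ifs <;> norm_num
  have hLHS : ∀ c d, H c d ^ 2 / (((sl U s).filter (fun S => sep S c d)).card : ℝ)
      = H c d ^ 2 / (2 * N) := by
    intro c d
    by_cases hcd : c = d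
    · subst hcd; simp [h0]
    · congr 1
      rw [← hN c d hcd, ← sum_sep s hcd, Finset.sum_boole]
  simp only [hH] at hLHS
  simp only [hLHS, ← Finset.sum_div]
  change (∑ c, ∑ d, H c d ^ 2) / (2 * N) ≤ dir s g / 2
  set W := ∑ c, ∑ d, H c d ^ 2 with hW
  set mu := (∑ S ∈ sl U s, quad H S) / ((sl U s).card : ℝ) with hmu
  have hφ0 : ∑ S ∈ sl U s, (quad H S - mu) = 0 := by
    rw [Finset.sum_sub_distrib, Finset.sum_const, nsmul_eq_mul, hmu]
    rcases (sl U s).eq_empty_or_nonempty with h | h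
    · simp [h]
    · rw [mul_div_cancel₀, sub_self]
      exact_mod_cast h.card_pos.ne'
  have hφ : 2 * k * nsq s (fun S => quad H S - mu) ≤ 16 * k ^ 2 * N * W := by
    refine le_trans (gap s _ hφ0) (le_trans (le_of_eq ?_) (dir_quad_le s H hs h0 N hN hN0 hk))
    simp [dir]
  have hGφ : ∑ S ∈ sl U s, g S * (quad H S - mu) = -2 * W := by
    simp only [mul_sub, Finset.sum_sub_distrib, ← Finset.sum_mul, hg, zero_mul, sub_zero, quad,
      Finset.mul_sum, hW]
    rw [Finset.sum_comm]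
    refine Finset.sum_congr rfl fun c _ => ?_
    rw [Finset.sum_comm]
    refine Finset.sum_congr rfl fun d _ => ?_
    calc ∑ S ∈ sl U s, g S * (H c d * (sg S c * sg S d))
        = H c d * ∑ S ∈ sl U s, (g S - 2 * (if sep S c d then g S else 0)) := by
          rw [Finset.mul_sum]
          refine Finset.sum_congr rfl fun S _ => ?_
          rw [sg_mul]; split_ifs <;> ring
      _ = -2 * H c d ^ 2 := by
          rw [Finset.sum_sub_distrib, hg, ← Finset.mul_sum, ← Finset.sum_filter]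
          simp only [hH]; ring
  have hcs := Finset.sum_mul_sq_le_sq_mul_sq (sl U s) g (fun S => quad H S - mu)
  rw [hGφ] at hcs
  have hW0 : 0 ≤ W := Finset.sum_nonneg fun _ _ => Finset.sum_nonneg fun _ _ => sq_nonneg _
  have hG0 : 0 ≤ nsq s g := Finset.sum_nonneg fun _ _ => sq_nonneg _
  have hgap := gap s g hg
  rcases eq_or_lt_of_le hN0 with hN' | hN'
  · rw [← hN']; simpa using div_nonneg hd0 two_pos.le
  have h2 : W ≤ 2 * k * N * nsq s g := by
    rcases eq_or_lt_of_le hW0 with h | h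
    · rw [← h]; positivity
    have h3 : nsq s (fun S => quad H S - mu) ≤ 8 * k * N * W := by
      refine le_of_mul_le_mul_left (le_trans hφ (le_of_eq ?_)) (by linarith : (0 : ℝ) < 2 * k)
      ring
    have h4 : (-2 * W) ^ 2 ≤ nsq s g * (8 * k * N * W) :=
      hcs.trans (mul_le_mul_of_nonneg_left h3 hG0)
    exact le_of_mul_le_mul_left (by linarith : W * W ≤ W * (2 * k * N * nsq s g)) h
  rw [div_le_iff₀ (by linarith)]
  have : 2 * k * N * nsq s g ≤ N * dir s g := by
    have := mul_le_mul_of_nonneg_left hgap hN0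
    linarith
  linarith

/-- The slice lemma: the weighted squared biases of the events that `c` and `d` are separated, over
ordered pairs, add up to at most half of the Dirichlet form. -/
theorem sep_bound (s : ℕ) (g : Finset U → ℝ) :
    ∑ c, ∑ d, (((sl U s).filter (fun S => sep S c d)).card : ℝ) *
        ((∑ S ∈ (sl U s).filter (fun S => sep S c d), g S)
            / (((sl U s).filter (fun S => sep S c d)).card : ℝ)
          - (∑ S ∈ sl U s, g S) / ((sl U s).card : ℝ)) ^ 2 ≤ dir s g / 2 := by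
  set μ := (∑ S ∈ sl U s, g S) / ((sl U s).card : ℝ) with hμ
  have h0 : ∑ S ∈ sl U s, (g S - μ) = 0 := by
    rw [Finset.sum_sub_distrib, Finset.sum_const, nsmul_eq_mul, hμ]
    rcases (sl U s).eq_empty_or_nonempty with h | h
    · simp [h]
    · rw [mul_div_cancel₀, sub_self]; exact_mod_cast h.card_pos.ne'
  refine le_trans (le_of_eq ?_) (le_trans (sep_bound_centred s _ h0) (le_of_eq ?_))
  · refine Finset.sum_congr rfl fun c _ => Finset.sum_congr rfl fun d _ => ?_
    rw [Finset.sum_sub_distrib, Finset.sum_const, nsmul_eq_mul]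
    rcases eq_or_ne (((sl U s).filter (fun S => sep S c d)).card : ℝ) 0 with h | h
    · simp [h]
    · field_simp
  · simp [dir]

end Slice

end Vale.Agent.P335
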